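import Vale.Agent.P205.Correction.Seminorm

/-!
# P205: periodic cutoffs at a given scale

`cut ρ R t` equals `1` where `ρ ≤ R * (2 - 2 / t)`, vanishes where `ρ ≥ R * (2 - 1 / t)`, and
its seminorm of order `l` is at most a constant times `t ^ l`.
-/

namespace Vale.Agent.P205.Correction

open scoped ContDiff
open Finset

noncomputable section

lemma iteratedDeriv_smoothTransition_bdd (n : ℕ) :
    ∃ C, ∀ x : ℝ, ‖iteratedDeriv n Real.smoothTransition x‖ ≤ C := by
  rcases Nat.eq_zero_or_pos n with rfl | hn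
  · refine ⟨1, fun x => ?_⟩
    rw [iteratedDeriv_zero, Real.norm_eq_abs, abs_of_nonneg (Real.smoothTransition.nonneg x)]
    exact Real.smoothTransition.le_one x
  have hc : Continuous (iteratedDeriv n Real.smoothTransition) :=
    (Real.smoothTransition.contDiff (n := ⊤)).continuous_iteratedDeriv n (by exact_mod_cast le_top)
  obtain ⟨C, hC⟩ := (isCompact_Icc (a := (0 : ℝ)) (b := 1)).exists_bound_of_continuousOn
    hc.continuousOn
  refine ⟨max C 0, fun x => ?_⟩
  by_cases hx : x ∈ Set.Icc (0 : ℝ) 1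
  · exact (hC x hx).trans (le_max_left _ _)
  · have : ∃ c : ℝ, Real.smoothTransition =ᶠ[nhds x] fun _ => c := by
      rcases not_and_or.mp hx with h | h
      · exact ⟨0, Filter.eventuallyEq_of_mem (Iio_mem_nhds (not_le.mp h))
          fun y hy => Real.smoothTransition.zero_of_nonpos (le_of_lt hy)⟩
      · exact ⟨1, Filter.eventuallyEq_of_mem (Ioi_mem_nhds (not_le.mp h))
          fun y hy => Real.smoothTransition.one_of_one_le (le_of_lt hy)⟩
    obtain ⟨c, hc'⟩ := this
    rw [hc'.iteratedDeriv_eq n, iteratedDeriv_const, if_neg hn.ne', norm_zero]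
    exact le_max_right _ _

/-- The cutoff at scale `1 / t`. -/
def cut (ρ : R2 → ℝ) (R t : ℝ) (p : R2) : ℝ := Real.smoothTransition (t * (2 - ρ p / R) - 1)

lemma smooth2_cut {ρ : R2 → ℝ} (hρ : Smooth2 ρ) (R t : ℝ) : Smooth2 (cut ρ R t) :=
  ⟨Real.smoothTransition.contDiff.comp
      ((contDiff_const.mul (contDiff_const.sub (hρ.1.div_const R))).sub contDiff_const),
    fun p => by simp only [cut, hρ.2.1], fun p => by simp only [cut, hρ.2.2]⟩

lemma cut_eq_one {ρ : R2 → ℝ} {R s t : ℝ} (hR : 0 < R) (hs : 0 < s) (hst : 2 * s ≤ t) {p : R2}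
    (hp : ρ p ≤ R * (2 - 1 / s)) : cut ρ R t p = 1 := by
  refine Real.smoothTransition.one_of_one_le ?_
  have h1 : ρ p / R ≤ 2 - 1 / s := by rw [div_le_iff₀ hR]; linarith
  have h2 : 2 ≤ t * (1 / s) := by rw [mul_one_div, le_div_iff₀ hs]; exact hst
  nlinarith

lemma cut_eq_zero {ρ : R2 → ℝ} {R t : ℝ} (hR : 0 < R) (ht : 0 < t) {p : R2}
    (hp : R * (2 - 1 / t) < ρ p) : cut ρ R t p = 0 := by
  refine Real.smoothTransition.zero_of_nonpos ?_
  have h1 : 2 - 1 / t ≤ ρ p / R := by rw [le_div_iff₀ hR]; linarith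
  have h2 : t * (1 / t) = 1 := mul_one_div_cancel ht.ne'
  nlinarith

lemma pn_cut_bound {ρ : R2 → ℝ} (hρ : Smooth2 ρ) (R : ℝ) :
    ∃ K : ℕ → ℝ, ∀ t : ℝ, 1 ≤ t → ∀ l, pn l (cut ρ R t) ≤ K l * t ^ l := by
  choose C hC using iteratedDeriv_smoothTransition_bdd
  have hC0 : ∀ i, 0 ≤ C i := fun i => (norm_nonneg _).trans (hC i 0)
  refine ⟨fun l => ∑ m ∈ range (l + 1), (m.factorial : ℝ) * (∑ i ∈ range (m + 1), C i)
    * (1 + |R⁻¹| * ∑ i ∈ range (m + 1), supD i ρ) ^ m, fun t ht l => ?_⟩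
  have ht0 : 0 ≤ t := by linarith
  have hM : ∀ m, 1 ≤ 1 + |R⁻¹| * ∑ i ∈ range (m + 1), supD i ρ := fun m =>
    le_add_of_nonneg_right (mul_nonneg (abs_nonneg _) (sum_nonneg fun i _ => supD_nonneg i ρ))
  rw [sum_mul]
  refine (pn_le_of_supD fun m _ => supD_le fun p => ?_).trans (sum_le_sum fun m hm => ?_)
    (b := ∑ m ∈ range (l + 1), (m.factorial : ℝ) * (∑ i ∈ range (m + 1), C i)
      * (t * (1 + |R⁻¹| * ∑ i ∈ range (m + 1), supD i ρ)) ^ m)
  · have hg : ContDiff ℝ ∞ fun q => t * (2 - ρ q / R) - 1 :=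
      (contDiff_const.mul (contDiff_const.sub (hρ.1.div_const R))).sub contDiff_const
    refine norm_iteratedFDeriv_comp_le (Real.smoothTransition.contDiff (n := ⊤)) hg
      (by exact_mod_cast le_top) p (fun i hi => ?_) (fun i hi1 hi => ?_)
    · rw [norm_iteratedFDeriv_eq_norm_iteratedDeriv]
      exact (hC i _).trans (single_le_sum (fun n _ => hC0 n) (mem_range.mpr (by omega)))
    · obtain ⟨n, rfl⟩ := Nat.exists_eq_add_of_le hi1
      rw [add_comm 1 n, ← norm_iteratedFDeriv_fderiv]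
      have e : fderiv ℝ (fun q => t * (2 - ρ q / R) - 1) = fun q => (-(t * R⁻¹)) • fderiv ℝ ρ q := by
        funext q
        have hd := (hρ.1.differentiable (by simp)).differentiableAt (x := q)
        refine (((((hd.hasFDerivAt.mul_const R⁻¹).const_sub 2).const_mul t).sub_const
          1).congr_fderiv ?_).fderiv
        simp [smul_smul]
        module
      rw [e, iteratedFDeriv_const_smul_apply'
        (hρ.fderiv.1.of_le (by exact_mod_cast le_top)).contDiffAt, norm_smul,
        norm_iteratedFDeriv_fderiv, norm_neg, Real.norm_eq_abs, abs_mul, abs_of_nonneg ht0]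
      have h1 : ‖iteratedFDeriv ℝ (n + 1) ρ p‖ ≤ ∑ j ∈ range (m + 1), supD j ρ :=
        (le_supD hρ _ p).trans
          (single_le_sum (fun j _ => supD_nonneg j ρ) (mem_range.mpr (by omega)))
      refine le_trans ?_ (le_self_pow₀ (one_le_mul_of_one_le_of_one_le ht (hM m)) (by omega))
      rw [mul_assoc]
      refine mul_le_mul_of_nonneg_left ?_ ht0
      exact (mul_le_mul_of_nonneg_left h1 (abs_nonneg _)).trans (le_add_of_nonneg_left zero_le_one)
  · rw [mul_pow, mul_comm (t ^ m), ← mul_assoc]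
    refine mul_le_mul_of_nonneg_left (pow_le_pow_right₀ ht (Nat.lt_succ_iff.mp (mem_range.mp hm))) ?_
    exact mul_nonneg (mul_nonneg (by positivity) (sum_nonneg fun i _ => hC0 i))
      (pow_nonneg (by linarith [hM m]) m)

end

end Vale.Agent.P205.Correction
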