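import Vale.Agent.P205.Correction.Smoothing
import Vale.Agent.P205.Correction.Cutoff
import Vale.Agent.P205.Newton.Defs

/-!
# P205: the periodic plane instance of the exact-correction data

The equation is `B (D(F₀ + x)) (D(F₀ + x)) = g` for an unknown periodic map `x`.  The right
inverse of the linearised equation, with its estimate, is an input.  `instData` builds the
`Newton.Data`, and `exact_of_limit` turns the conclusion of the abstract theorem into a smooth
periodic solution with controlled support.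
-/

namespace Vale.Agent.P205.Correction

open scoped ContDiff
open Finset

noncomputable section

variable {V W : Type*} [NormedAddCommGroup V] [NormedSpace ℝ V] [NormedAddCommGroup W]
  [NormedSpace ℝ W]

/-- The fixed data of a local problem. -/
structure Setup (V W : Type*) [NormedAddCommGroup V] [NormedSpace ℝ V] [NormedAddCommGroup W]
    [NormedSpace ℝ W] where
  /-- the quadratic form of first derivatives -/
  B : (R2 →L[ℝ] V) →L[ℝ] (R2 →L[ℝ] V) →L[ℝ] W
  /-- the radius function -/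
  radial : R2 → ℝ
  /-- the radius of the support -/
  R : ℝ
  /-- loss of derivatives -/
  a : ℕ
  /-- bounds of the base data -/
  K : ℕ → ℝ
  /-- bounds of the right inverse -/
  CW : ℕ → ℝ
  radial_smooth : Smooth2 radial
  R_pos : 0 < R
  a_ge : 8 ≤ a

/-- The operator norm of a bilinear map. -/
def bilinNorm {E F G : Type*} [NormedAddCommGroup E] [NormedSpace ℝ E] [NormedAddCommGroup F]
    [NormedSpace ℝ F] [NormedAddCommGroup G] [NormedSpace ℝ G] (B : E →L[ℝ] F →L[ℝ] G) : ℝ := ‖B‖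

lemma bilinNorm_nonneg {E F G : Type*} [NormedAddCommGroup E] [NormedSpace ℝ E]
    [NormedAddCommGroup F] [NormedSpace ℝ F] [NormedAddCommGroup G] [NormedSpace ℝ G]
    (B : E →L[ℝ] F →L[ℝ] G) : 0 ≤ bilinNorm B := norm_nonneg B

lemma pn_bilin_le' {E F G : Type*} [NormedAddCommGroup E] [NormedSpace ℝ E]
    [NormedAddCommGroup F] [NormedSpace ℝ F] [NormedAddCommGroup G] [NormedSpace ℝ G]
    {u : R2 → E} {v : R2 → F} (hu : Smooth2 u) (hv : Smooth2 v) (B : E →L[ℝ] F →L[ℝ] G) (j : ℕ) :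
    pn j (fun x => B (u x) (v x))
      ≤ bilinNorm B * (j + 1) * 2 ^ j * ∑ i ∈ range (j + 1), pn i u * pn (j - i) v :=
  pn_bilin_le hu hv B j

namespace Setup

variable (P : Setup V W)

/-- Support at stage `t`. -/
def Sup (t : ℝ) (x : R2 → V) : Prop := ∀ p, P.R * (2 - 1 / t) < P.radial p → x p = 0

/-- Smooth periodic corrections vanishing beyond the doubled support. -/
def corrSub : Submodule ℝ (R2 → V) where
  carrier := {u | Smooth2 u ∧ ∀ p, 2 * P.R < P.radial p → u p = 0}
  add_mem' {u v} hu hv := ⟨hu.1.add hv.1, fun p hp => by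
    show u p + v p = 0
    rw [hu.2 p hp, hv.2 p hp, add_zero]⟩
  zero_mem' := ⟨Smooth2.zero, fun _ _ => rfl⟩
  smul_mem' c u hu := ⟨hu.1.const_smul c, fun p hp => by
    show c • u p = 0
    rw [hu.2 p hp, smul_zero]⟩

/-- The error of a correction `x`. -/
def errMap (F0 : R2 → V) (g : R2 → W) (x : R2 → V) (p : R2) : W :=
  P.B (fderiv ℝ (fun q => F0 q + x q) p) (fderiv ℝ (fun q => F0 q + x q) p) - g p

/-- The linearised equation. -/
def lin (F w : R2 → V) (p : R2) : W :=
  P.B (fderiv ℝ F p) (fderiv ℝ w p) + P.B (fderiv ℝ w p) (fderiv ℝ F p)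

/-- A local problem: base map, target, and a right inverse of the linearised equation on the
ball of radius `Lam⁻¹`.  Derivatives of `x` of order at most `a` cost no power of the frequency. -/
structure Problem where
  /-- the large parameter -/
  Lam : ℝ
  /-- the base map -/
  F0 : R2 → V
  /-- the target -/
  g : R2 → W
  /-- the right inverse applied to the error -/
  inv : P.corrSub → P.corrSub
  one_le : 1 ≤ Lam
  F0_smooth : Smooth2 F0
  g_smooth : Smooth2 g
  F0_le : ∀ i, pn i F0 ≤ P.K i * Lam ^ i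
  g_le : ∀ i, pn i g ≤ P.K i * Lam ^ i
  inv_eq : ∀ x, pn P.a x.1 ≤ Lam⁻¹ → ∀ p,
    P.lin (fun q => F0 q + x.1 q) (inv x).1 p = P.errMap F0 g x.1 p
  inv_sup : ∀ s x, Lam ≤ s → pn P.a x.1 ≤ Lam⁻¹ → P.Sup s x.1 → P.Sup s (inv x).1
  inv_le : ∀ i t δ x, Lam ≤ t → pn P.a x.1 ≤ Lam⁻¹ → (∀ j ≤ i + P.a, pn j x.1 ≤ t ^ (j - P.a)) →
    (∀ j ≤ i + P.a, pn j (P.errMap F0 g x.1) ≤ δ * t ^ j) →
    pn i (inv x).1 ≤ P.CW i * Lam ^ (P.a * (i + 1)) * t ^ (i + P.a) * δ

lemma smooth2_errMap {F0 : R2 → V} {g : R2 → W} {x : R2 → V} (hF : Smooth2 F0) (hg : Smooth2 g)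
    (hx : Smooth2 x) : Smooth2 (P.errMap F0 g x) :=
  ((hF.add hx).fderiv.bilin (hF.add hx).fderiv P.B).sub hg

lemma smooth2_lin {F w : R2 → V} (hF : Smooth2 F) (hw : Smooth2 w) : Smooth2 (P.lin F w) :=
  (hF.fderiv.bilin hw.fderiv P.B).add (hw.fderiv.bilin hF.fderiv P.B)

/-- The combinatorial constant of the quadratic estimate. -/
def quadC (i : ℕ) : ℝ := bilinNorm P.B * (i + 1) * 2 ^ i * (i + 1)

lemma quadC_nonneg (i : ℕ) : 0 ≤ P.quadC i := by
  have := bilinNorm_nonneg P.B; unfold quadC; positivity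

lemma pn_quad_le {u v : R2 → V} (hu : Smooth2 u) (hv : Smooth2 v) (i : ℕ) {M : ℝ}
    (h : ∀ l ≤ i, pn (l + 1) u * pn (i - l + 1) v ≤ M) :
    pn i (fun p => P.B (fderiv ℝ u p) (fderiv ℝ v p)) ≤ P.quadC i * M := by
  refine (pn_bilin_le' hu.fderiv hv.fderiv P.B i).trans ?_
  rw [quadC, mul_assoc _ ((i : ℝ) + 1) M]
  refine mul_le_mul_of_nonneg_left ?_ (by have := bilinNorm_nonneg P.B; positivity)
  refine (sum_le_card_nsmul (range (i + 1)) _ M fun l hl => ?_).trans_eq
    (by rw [card_range, nsmul_eq_mul]; push_cast; ring)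
  exact (mul_le_mul (pn_fderiv_le hu l) (pn_fderiv_le hv (i - l)) (pn_nonneg _ _)
    (pn_nonneg _ _)).trans (h l (Nat.lt_succ_iff.mp (mem_range.mp hl)))

/-- The bound of the base map up to one more derivative. -/
def baseC (i : ℕ) : ℝ := ∑ l ∈ range (i + 2), |P.K l| + 1

lemma baseC_nonneg (i : ℕ) : 0 ≤ P.baseC i := by unfold baseC; positivity

lemma pn_base_le (D : P.Problem) {x : R2 → V} (hx : Smooth2 x) {i : ℕ} {t : ℝ} (ht : D.Lam ≤ t)
    (hxt : ∀ j ≤ i + P.a, pn j x ≤ t ^ (j - P.a)) {l : ℕ} (hl : l ≤ i + 1) :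
    pn l (fun q => D.F0 q + x q) ≤ P.baseC i * t ^ l := by
  have := P.a_ge
  have hL := D.one_le
  refine (pn_add_le D.F0_smooth hx l).trans ?_
  have h1 : pn l D.F0 ≤ |P.K l| * t ^ l := (D.F0_le l).trans
    (mul_le_mul (le_abs_self _) (pow_le_pow_left₀ (by linarith) ht l) (by positivity) (abs_nonneg _))
  have h2 : |P.K l| ≤ ∑ m ∈ range (i + 2), |P.K m| :=
    single_le_sum (fun m _ => abs_nonneg (P.K m)) (mem_range.mpr (by omega))
  have h3 : (0 : ℝ) ≤ t ^ l := pow_nonneg (by linarith) l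
  rw [baseC, add_mul, one_mul]
  exact add_le_add (h1.trans (mul_le_mul_of_nonneg_right h2 h3))
    ((hxt l (by omega)).trans (pow_le_pow_right₀ (by linarith) (Nat.sub_le l P.a)))

lemma pn_lin_le (D : P.Problem) {x w : R2 → V} (hx : Smooth2 x) (hw : Smooth2 w) {i : ℕ} {t : ℝ}
    (ht : D.Lam ≤ t) (hxt : ∀ j ≤ i + P.a, pn j x ≤ t ^ (j - P.a)) :
    pn i (P.lin (fun q => D.F0 q + x q) w)
      ≤ 2 * P.quadC i * P.baseC i * t ^ (i + P.a) * pn (i + P.a) w := by
  have := P.a_ge
  have hL := D.one_le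
  have hA := P.baseC_nonneg i
  have hF := D.F0_smooth.add hx
  have key : ∀ l ≤ i + 1, ∀ m ≤ i + 1, pn l (fun q => D.F0 q + x q) * pn m w
      ≤ P.baseC i * t ^ (i + P.a) * pn (i + P.a) w := fun l hl m hm => by
    refine mul_le_mul ((P.pn_base_le D hx ht hxt hl).trans (mul_le_mul_of_nonneg_left
      (pow_le_pow_right₀ (by linarith) (by omega)) hA)) (pn_mono (by omega) w) (pn_nonneg _ _) ?_
    exact mul_nonneg hA (pow_nonneg (by linarith) _)
  refine (pn_add_le (hF.fderiv.bilin hw.fderiv P.B) (hw.fderiv.bilin hF.fderiv P.B) i).trans ?_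
  refine (add_le_add (P.pn_quad_le hF hw i fun l hl => key (l + 1) (by omega) (i - l + 1) (by omega))
    (P.pn_quad_le hw hF i fun l hl => ?_)).trans_eq
    (b := P.quadC i * (P.baseC i * t ^ (i + P.a) * pn (i + P.a) w)
      + P.quadC i * (P.baseC i * t ^ (i + P.a) * pn (i + P.a) w)) ?_
  · rw [mul_comm]
    exact key (i - l + 1) (by omega) (l + 1) (by omega)
  · ring

lemma errMap_sub (F0 : R2 → V) (g : R2 → W) {x v w : R2 → V} (hF : Smooth2 F0) (hx : Smooth2 x)
    (hv : Smooth2 v) (hw : Smooth2 w)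
    (he : ∀ p, P.lin (fun q => F0 q + x q) w p = P.errMap F0 g x p) :
    P.errMap F0 g (x - v) = fun p => P.lin (fun q => F0 q + x q) (w - v) p
      + P.B (fderiv ℝ v p) (fderiv ℝ v p) := by
  funext p
  have hd := ((hF.add hx).1.differentiable (by simp)).differentiableAt (x := p)
  have hdv := (hv.1.differentiable (by simp)).differentiableAt (x := p)
  have hdw := (hw.1.differentiable (by simp)).differentiableAt (x := p)
  have e1 : fderiv ℝ (fun q => F0 q + (x - v) q) p
      = fderiv ℝ (fun q => F0 q + x q) p - fderiv ℝ v p := by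
    rw [show (fun q => F0 q + (x - v) q) = (fun q => F0 q + x q) - v from
      funext fun q => by simp only [Pi.sub_apply]; abel]
    exact fderiv_sub hd hdv
  have h := he p
  simp only [lin, errMap] at h ⊢
  rw [e1, fderiv_sub hdw hdv]
  simp only [map_sub, sub_apply]
  rw [← sub_eq_zero] at h ⊢
  refine Eq.trans ?_ (neg_eq_zero.mpr h)
  abel

/-- The constants of the smoothing operators used at stage `t`. -/
def cutK : ℕ → ℝ := Classical.choose (pn_cut_bound P.radial_smooth P.R)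

variable [FiniteDimensional ℝ V]

/-- The constants of the instance. -/
def instC (i : ℕ) : ℝ :=
  |P.CW i| + (smoothing_fst (V := V) P.cutK i).choose + (smoothing_snd (V := V) P.cutK i).choose
    + (P.quadC i * (P.baseC i * P.baseC i) + |P.K i|) + (2 * P.quadC i * P.baseC i + P.quadC i)

lemma instC_ge (i : ℕ) :
    |P.CW i| ≤ P.instC i ∧ (smoothing_fst (V := V) P.cutK i).choose ≤ P.instC i ∧
    (smoothing_snd (V := V) P.cutK i).choose ≤ P.instC i ∧
    P.quadC i * (P.baseC i * P.baseC i) + |P.K i| ≤ P.instC i ∧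
    2 * P.quadC i * P.baseC i + P.quadC i ≤ P.instC i := by
  have h1 := abs_nonneg (P.CW i)
  have h2 := (smoothing_fst (V := V) P.cutK i).choose_spec.1
  have h3 := (smoothing_snd (V := V) P.cutK i).choose_spec.1
  have h4 : 0 ≤ P.quadC i * (P.baseC i * P.baseC i) + |P.K i| := by
    have := P.quadC_nonneg i; have := P.baseC_nonneg i; positivity
  have h5 : 0 ≤ 2 * P.quadC i * P.baseC i + P.quadC i := by
    have := P.quadC_nonneg i; have := P.baseC_nonneg i; positivity
  unfold instC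
  refine ⟨?_, ?_, ?_, ?_, ?_⟩ <;> linarith

omit [FiniteDimensional ℝ V] in
lemma sup_fixed {s t : ℝ} (hs : 0 < s) (hst : 2 * s ≤ t) {w : R2 → V} (hw : P.Sup s w) (p : R2) :
    cut P.radial P.R t p • w p = w p := by
  rcases le_or_gt (P.radial p) (P.R * (2 - 1 / s)) with h | h
  · rw [cut_eq_one P.R_pos hs hst h, one_smul]
  · rw [hw p h, smul_zero]

/-- The smoothing operator of stage `t`. -/
def stage (t : ℝ) (x : P.corrSub) : P.corrSub :=
  ⟨smo (cut P.radial P.R (max t 1)) t x.1,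
    smooth2_smo (smooth2_cut P.radial_smooth P.R _) x.2.1 t, fun p hp => by
      refine smo_eq_zero (cut_eq_zero P.R_pos (by positivity) (lt_trans ?_ hp)) t x.1
      have h1 : 0 < 1 / max t 1 := by positivity
      nlinarith [P.R_pos]⟩

lemma stage_apply {t : ℝ} (ht : 1 ≤ t) (x : P.corrSub) :
    (P.stage t x).1 = smo (cut P.radial P.R t) t x.1 := by
  show smo (cut P.radial P.R (max t 1)) t x.1 = _
  rw [max_eq_left ht]

lemma stage_step {s t : ℝ} (hs : 1 ≤ s) (hst : 2 * s ≤ t) {x : R2 → V} (hx : P.Sup s x)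
    (w : P.corrSub) : P.Sup t (x - (P.stage t w).1) := fun p hp => by
  show x p - (P.stage t w).1 p = 0
  rw [P.stage_apply (by linarith)]
  have h2 : P.R * (2 - 1 / s) ≤ P.R * (2 - 1 / t) := by
    refine mul_le_mul_of_nonneg_left ?_ P.R_pos.le
    linarith [one_div_le_one_div_of_le (show 0 < s by linarith) (show s ≤ t by linarith)]
  rw [hx p (h2.trans_lt hp), smo_eq_zero (cut_eq_zero P.R_pos (by linarith) hp), sub_zero]

lemma stage_smooth_le {t : ℝ} (ht : 1 ≤ t) (w : P.corrSub) (i : ℕ) :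
    pn i (P.stage t w).1 ≤ (smoothing_fst (V := V) P.cutK i).choose * t ^ (i + P.a) * pn 0 w.1 := by
  have := P.a_ge
  rw [P.stage_apply ht]
  refine ((smoothing_fst (V := V) P.cutK i).choose_spec.2 t ht _
    (smooth2_cut P.radial_smooth P.R t)
    (Classical.choose_spec (pn_cut_bound P.radial_smooth P.R) t ht) _ w.2.1).trans ?_
  exact mul_le_mul_of_nonneg_right (mul_le_mul_of_nonneg_left (pow_le_pow_right₀ ht (by omega))
    (smoothing_fst (V := V) P.cutK i).choose_spec.1) (pn_nonneg 0 _)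

lemma stage_err_le {i k : ℕ} {s t : ℝ} (hik : i ≤ k) (hs : 1 ≤ s) (hst : 2 * s ≤ t)
    (w : P.corrSub) (hw : P.Sup s w.1) :
    pn i (w.1 - (P.stage t w).1) * t ^ k
      ≤ (smoothing_snd (V := V) P.cutK k).choose * t ^ (i + P.a) * pn k w.1 := by
  have := P.a_ge
  have ht : 1 ≤ t := by linarith
  rw [P.stage_apply ht]
  refine ((smoothing_snd (V := V) P.cutK k).choose_spec.2 t ht _
    (smooth2_cut P.radial_smooth P.R t)
    (Classical.choose_spec (pn_cut_bound P.radial_smooth P.R) t ht) i hik _ w.2.1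
    (P.sup_fixed (by linarith) hst hw)).trans ?_
  exact mul_le_mul_of_nonneg_right (mul_le_mul_of_nonneg_left (pow_le_pow_right₀ ht (by omega))
    (smoothing_snd (V := V) P.cutK k).choose_spec.1) (pn_nonneg k _)

/-- The abstract data of a local problem. -/
def instData (D : P.Problem) : Newton.Data (P.corrSub) where
  a := P.a
  C := P.instC
  Lam := D.Lam
  rho := D.Lam⁻¹
  p i x := pn i x.1
  err i x := pn i (P.errMap D.F0 D.g x.1)
  S := P.stage
  W := D.inv
  Sup t x := P.Sup t x.1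
  p_nonneg i x := pn_nonneg i x.1
  err_nonneg i x := pn_nonneg i _
  p_zero i := by
    refine le_antisymm (le_of_le_of_eq (pn_le_of_supD (C := fun _ => (0 : ℝ)) fun m _ =>
      supD_le fun x => ?_) sum_const_zero) (pn_nonneg i _)
    simp
  p_sub i x y := pn_sub_le x.2.1 y.2.1 i
  p_mono i j x h := pn_mono h x.1
  sup_zero s p _ := rfl
  sup_step s t x hs hst _ hx := P.stage_step (D.one_le.trans hs) hst hx (D.inv x)
  smooth_le i s t x hs hst _ _ :=
    (P.stage_smooth_le (by linarith [D.one_le]) (D.inv x) i).trans (mul_le_mul_of_nonneg_right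
      (mul_le_mul_of_nonneg_right (P.instC_ge i).2.1 (pow_nonneg (by linarith [D.one_le]) _))
      (pn_nonneg 0 _))
  smooth_err i k s t x hik hs hst hr hx :=
    (P.stage_err_le hik (D.one_le.trans hs) hst (D.inv x) (D.inv_sup s x hs hr hx)).trans
      (mul_le_mul_of_nonneg_right (mul_le_mul_of_nonneg_right (P.instC_ge k).2.2.1
        (pow_nonneg (by linarith [D.one_le]) _)) (pn_nonneg k _))
  W_le i t δ x ht hr hx he := by
    have hL := D.one_le
    have hδ : 0 ≤ δ := by simpa using (pn_nonneg 0 _).trans (he 0 (Nat.zero_le _))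
    refine (D.inv_le i t δ x ht hr hx he).trans ?_
    have h1 : P.CW i ≤ P.instC i := (le_abs_self _).trans (P.instC_ge i).1
    have ht0 : 0 ≤ t := by linarith
    gcongr
  err_le i t x ht _ hx := by
    have hL := D.one_le
    have ht1 : 1 ≤ t := by linarith
    have := P.a_ge
    have hA := P.baseC_nonneg i
    have hF := D.F0_smooth.add x.2.1
    refine (pn_sub_le (hF.fderiv.bilin hF.fderiv P.B) D.g_smooth i).trans ?_
    refine (add_le_add (P.pn_quad_le hF hF i (M := P.baseC i * P.baseC i * t ^ (i + P.a))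
      fun l hl => ?_) ((D.g_le i).trans (mul_le_mul (le_abs_self _)
        ((pow_le_pow_left₀ (by linarith) ht i).trans (pow_le_pow_right₀ ht1 (Nat.le_add_right i P.a)))
        (by positivity) (abs_nonneg _)))).trans ?_
    · refine (mul_le_mul (P.pn_base_le D x.2.1 ht hx (show l + 1 ≤ i + 1 by omega))
        (P.pn_base_le D x.2.1 ht hx (show i - l + 1 ≤ i + 1 by omega)) (pn_nonneg _ _)
        (by positivity)).trans ?_
      calc P.baseC i * t ^ (l + 1) * (P.baseC i * t ^ (i - l + 1))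
          = P.baseC i * P.baseC i * t ^ ((l + 1) + (i - l + 1)) := by rw [pow_add]; ring
        _ ≤ _ := mul_le_mul_of_nonneg_left (pow_le_pow_right₀ ht1 (by omega)) (by positivity)
    · rw [← mul_assoc, ← add_mul]
      exact mul_le_mul_of_nonneg_right (P.instC_ge i).2.2.2.1 (by positivity)
  err_step i t x v ht hr hx _ := by
    have hL := D.one_le
    have := P.a_ge
    have hF := D.F0_smooth.add x.2.1
    show pn i (P.errMap D.F0 D.g (x.1 - v.1))
      ≤ P.instC i * t ^ (i + P.a) * (pn (i + P.a) ((D.inv x).1 - v.1) + pn (i + P.a) v.1 ^ 2)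
    rw [P.errMap_sub D.F0 D.g D.F0_smooth x.2.1 v.2.1 (D.inv x).2.1 (D.inv_eq x hr)]
    have hw : Smooth2 ((D.inv x).1 - v.1) := (D.inv x).2.1.sub v.2.1
    refine (pn_add_le (P.smooth2_lin hF hw) (v.2.1.fderiv.bilin v.2.1.fderiv P.B) i).trans ?_
    have h2 : pn i (fun p => P.B (fderiv ℝ v.1 p) (fderiv ℝ v.1 p))
        ≤ P.quadC i * t ^ (i + P.a) * pn (i + P.a) v.1 ^ 2 := by
      have h3 := pn_nonneg (i + P.a) v.1
      refine (P.pn_quad_le v.2.1 v.2.1 i (M := pn (i + P.a) v.1 ^ 2) fun l hl => ?_).trans ?_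
      · rw [sq]
        exact mul_le_mul (pn_mono (by omega) _) (pn_mono (by omega) _) (pn_nonneg _ _) h3
      · exact mul_le_mul_of_nonneg_right (le_mul_of_one_le_right (P.quadC_nonneg i)
          (one_le_pow₀ (by linarith))) (sq_nonneg _)
    refine (add_le_add (P.pn_lin_le D x.2.1 hw ht hx) h2).trans ?_
    have ht0 : (0 : ℝ) ≤ t ^ (i + P.a) := pow_nonneg (by linarith) _
    have hC := (P.instC_ge i).2.2.2.2
    have hq := P.quadC_nonneg i
    have hA := P.baseC_nonneg i
    rw [mul_add]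
    refine add_le_add (mul_le_mul_of_nonneg_right (mul_le_mul_of_nonneg_right ?_ ht0)
      (pn_nonneg _ _)) (mul_le_mul_of_nonneg_right (mul_le_mul_of_nonneg_right ?_ ht0)
      (sq_nonneg _))
    · linarith
    · linarith [mul_nonneg (mul_nonneg zero_le_two hq) hA]

/-- The limit of a summable sequence of corrections. -/
theorem exists_limit {Lam : ℝ} (hLam : 1 ≤ Lam) {F0 : R2 → V} (hF0 : Smooth2 F0) (u : ℕ → P.corrSub)
    (T : ℕ → ℝ) (h0 : u 0 = 0)
    (hT : ∀ n, Lam ≤ T n ∧ P.Sup (T n) (u n).1 ∧ pn P.a (u n).1 ≤ Lam⁻¹)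
    (hs : ∀ i, Summable fun n => pn i (u (n + 1) - u n).1) :
    ∃ x : R2 → V, Smooth2 x ∧ (∀ p, 2 * P.R ≤ P.radial p → x p = 0) ∧ pn P.a x ≤ Lam⁻¹ ∧
      (∀ j, pn j x ≤ ∑' n, pn j (u (n + 1) - u n).1) ∧
      ∀ q, Filter.Tendsto (fun N => fderiv ℝ (fun r => F0 r + (u N).1 r) q) Filter.atTop
        (nhds (fderiv ℝ (fun r => F0 r + x r) q)) := by
  obtain ⟨hx, htail⟩ := exists_sum (v := fun n => (u (n + 1) - u n).1)
    (fun n => (u (n + 1) - u n).2.1) hs
  set x : R2 → V := fun q => ∑' n, (u (n + 1) - u n).1 q with hxdef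
  have hps : ∀ N q, ∑ n ∈ range N, (u (n + 1) - u n).1 q = (u N).1 q := fun N q => by
    have h := congrArg (fun z : P.corrSub => z.1 q) (sum_range_sub u N)
    simpa [h0, Finset.sum_apply] using h
  simp only [hps] at htail
  have hlim : ∀ j, Filter.Tendsto (fun N => pn j (fun q => x q - (u N).1 q)) Filter.atTop (nhds 0) :=
    fun j => squeeze_zero (fun N => pn_nonneg j _) (fun N => htail j N)
      (tendsto_sum_nat_add fun n => pn j (u (n + 1) - u n).1)
  have hpt : ∀ q, Filter.Tendsto (fun N => (u N).1 q) Filter.atTop (nhds (x q)) := fun q => by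
    refine tendsto_iff_norm_sub_tendsto_zero.mpr
      (squeeze_zero (fun N => norm_nonneg _) (fun N => ?_) (hlim 0))
    rw [norm_sub_rev]
    exact norm_le_pn (hx.sub (u N).2.1) 0 q
  refine ⟨x, hx, fun q hq => ?_, ?_, fun j => ?_, fun q => ?_⟩
  · refine tendsto_nhds_unique (hpt q) (Filter.Tendsto.congr (fun N => ?_) tendsto_const_nhds)
    refine ((hT N).2.1 q (lt_of_lt_of_le ?_ hq)).symm
    have h1 : 0 < 1 / T N := by
      have := (hT N).1; exact one_div_pos.mpr (by linarith)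
    nlinarith [P.R_pos]
  · refine ge_of_tendsto (x := Filter.atTop) (b := pn P.a x) (?_ : Filter.Tendsto
      (fun N => Lam⁻¹ + pn P.a (fun q => x q - (u N).1 q)) Filter.atTop (nhds Lam⁻¹))
      (Filter.Eventually.of_forall fun N => ?_)
    · simpa using (hlim P.a).const_add Lam⁻¹
    · calc pn P.a x = pn P.a (fun q => (u N).1 q + (x q - (u N).1 q)) := by simp
        _ ≤ _ := (pn_add_le (u N).2.1 (hx.sub (u N).2.1) P.a).trans (by linarith [(hT N).2.2])
  · simpa [h0, hxdef] using htail j 0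
  · refine tendsto_iff_norm_sub_tendsto_zero.mpr
      (squeeze_zero (fun N => norm_nonneg _) (fun N => ?_) (hlim 1))
    have hdF := ((hF0.add hx).1.differentiable (by simp)).differentiableAt (x := q)
    have hdu := ((hF0.add (u N).2.1).1.differentiable (by simp)).differentiableAt (x := q)
    rw [norm_sub_rev, ← fderiv_sub hdF hdu, ← norm_iteratedFDeriv_one,
      show (fun r => F0 r + x r) - (fun r => F0 r + (u N).1 r)
        = fun r => x r - (u N).1 r from funext fun r => by simp]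
    exact (le_supD (hx.sub (u N).2.1) 1 q).trans (supD_le_pn le_rfl _)

/-- The limit of a sequence of corrections solves the equation. -/
theorem exact_of_limit (D : P.Problem) (u : ℕ → P.corrSub) (T : ℕ → ℝ) (h0 : u 0 = 0)
    (hT : ∀ n, D.Lam ≤ T n ∧ P.Sup (T n) (u n).1 ∧ pn P.a (u n).1 ≤ D.Lam⁻¹)
    (hs : ∀ i, Summable fun n => pn i (u (n + 1) - u n).1)
    (he : Filter.Tendsto (fun n => pn 0 (P.errMap D.F0 D.g (u n).1)) Filter.atTop (nhds 0)) :
    ∃ x : R2 → V, Smooth2 x ∧ (∀ p, 2 * P.R ≤ P.radial p → x p = 0) ∧ pn P.a x ≤ D.Lam⁻¹ ∧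
      (∀ j, pn j x ≤ ∑' n, pn j (u (n + 1) - u n).1) ∧
      ∀ p, P.B (fderiv ℝ (fun q => D.F0 q + x q) p) (fderiv ℝ (fun q => D.F0 q + x q) p)
        = D.g p := by
  obtain ⟨x, hx, hxv, hxa, hxs, hder⟩ := P.exists_limit D.one_le D.F0_smooth u T h0 hT hs
  refine ⟨x, hx, hxv, hxa, hxs, fun q => ?_⟩
  have h1 : Filter.Tendsto (fun N => P.errMap D.F0 D.g (u N).1 q) Filter.atTop
      (nhds (P.errMap D.F0 D.g x q)) :=
    (((P.B.continuous.clm_apply continuous_id).tendsto _).comp (hder q)).sub_const _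
  have h2 : Filter.Tendsto (fun N => P.errMap D.F0 D.g (u N).1 q) Filter.atTop (nhds 0) :=
    squeeze_zero_norm (fun N => norm_le_pn (P.smooth2_errMap D.F0_smooth D.g_smooth (u N).2.1) 0 q) he
  exact sub_eq_zero.mp (tendsto_nhds_unique h1 h2)

end Setup

end

end Vale.Agent.P205.Correction
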