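import Vale.Agent.P205.Correction.Instance
import Vale.Agent.P205.Newton.Main

/-!
# P205: exact correction on the periodic plane

`exists_exact` combines the abstract exact-correction theorem with the periodic plane instance:
given bounded data, a loss-tolerant right inverse of the linearised equation and a sufficiently
small initial error, the equation `B (D(F₀ + x)) (D(F₀ + x)) = g` has a smooth periodic solution
`x` that is small and vanishes outside the doubled support.
-/

namespace Vale.Agent.P205.Correction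

open scoped ContDiff
open Finset

noncomputable section

variable {V W : Type*} [NormedAddCommGroup V] [NormedSpace ℝ V] [FiniteDimensional ℝ V]
  [NormedAddCommGroup W] [NormedSpace ℝ W]

/-- Exact correction with bounds: the threshold depends only on the setup, and the bounds on the
seminorms of the correction also on the size `E` of the initial error. -/
theorem exists_exact_bound (P : Setup V W) :
    ∃ Lam₀ : ℝ, ∀ E : ℕ → ℝ, ∃ G : ℕ → ℕ → ℝ, ∀ D : P.Problem, Lam₀ ≤ D.Lam →
      (∀ i ≤ P.a, pn i (P.errMap D.F0 D.g 0) * D.Lam ^ Newton.smallExp P.a ≤ 1) →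
      (∀ N, ∀ i ≤ P.a, pn i (P.errMap D.F0 D.g 0) * D.Lam ^ N ≤ E N) →
      ∃ x : R2 → V, Smooth2 x ∧ (∀ p, 2 * P.R ≤ P.radial p → x p = 0) ∧ pn P.a x ≤ D.Lam⁻¹ ∧
        (∀ i m, pn i x * D.Lam ^ m ≤ G i m) ∧
        ∀ p, P.B (fderiv ℝ (fun q => D.F0 q + x q) p) (fderiv ℝ (fun q => D.F0 q + x q) p)
          = D.g p := by
  refine ⟨2 + ∑ i ∈ range (Newton.order P.a + 1), |P.instC i|, fun E => ?_⟩
  obtain ⟨G, hG0, hG⟩ := Newton.exists_solution_bound (X := P.corrSub) P.a P.instC E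
  refine ⟨fun i m => G i m * 2, fun D hD hsmall hE => ?_⟩
  have h1 : 0 ≤ ∑ i ∈ range (Newton.order P.a + 1), |P.instC i| :=
    sum_nonneg fun i _ => abs_nonneg _
  have hL : 0 < D.Lam := by linarith
  obtain ⟨u, T, hu0, hu, hinc, he⟩ := hG (P.instData D) rfl rfl
    (show (2 : ℝ) ≤ D.Lam by linarith)
    le_rfl
    (fun i hi => show |P.instC i| ≤ D.Lam from
      le_trans (single_le_sum (s := range (Newton.order P.a + 1))
        (fun n _ => abs_nonneg (P.instC n)) (mem_range.mpr (Nat.lt_succ_of_le hi))) (by linarith))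
    (fun i hi => hsmall i hi) (fun N i hi => hE N i hi)
  have hinc' : ∀ i m n, pn i (u (n + 1) - u n).1 ≤ G i m / D.Lam ^ m * (1 / 2) ^ n := fun i m n =>
    (hinc i m n).trans_eq (by show G i m * (1 / 2) ^ n / D.Lam ^ m = _; ring)
  have hgeo := summable_geometric_of_lt_one (r := (1 / 2 : ℝ)) (by norm_num) (by norm_num)
  have hs : ∀ i, Summable fun n => pn i (u (n + 1) - u n).1 := fun i =>
    (hgeo.mul_left _).of_nonneg_of_le (fun n => pn_nonneg i _) (hinc' i 0)
  obtain ⟨x, hx, hxv, hxa, hxs, hxe⟩ :=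
    P.exact_of_limit D u T hu0 (fun n => ⟨(hu n).1, (hu n).2.2⟩) hs (he 0 (Nat.zero_le _))
  refine ⟨x, hx, hxv, hxa, fun i m => ?_, hxe⟩
  have h : pn i x ≤ G i m / D.Lam ^ m * 2 :=
    ((hxs i).trans ((hs i).tsum_le_tsum (hinc' i m) (hgeo.mul_left _))).trans_eq
      (by rw [tsum_mul_left, tsum_geometric_of_lt_one (by norm_num) (by norm_num)]; norm_num)
  rw [div_mul_eq_mul_div, le_div_iff₀ (pow_pos hL m)] at h
  exact h

/-- Exact correction: the threshold depends only on the setup. -/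
theorem exists_exact (P : Setup V W) :
    ∃ Lam₀ : ℝ, ∀ D : P.Problem, Lam₀ ≤ D.Lam →
      (∀ i ≤ P.a, pn i (P.errMap D.F0 D.g 0) * D.Lam ^ Newton.smallExp P.a ≤ 1) →
      ∃ x : R2 → V, Smooth2 x ∧ (∀ p, 2 * P.R ≤ P.radial p → x p = 0) ∧ pn P.a x ≤ D.Lam⁻¹ ∧
        ∀ p, P.B (fderiv ℝ (fun q => D.F0 q + x q) p) (fderiv ℝ (fun q => D.F0 q + x q) p)
          = D.g p := by
  obtain ⟨Lam₀, h⟩ := exists_exact_bound P
  refine ⟨max Lam₀ 1, fun D hD hsmall => ?_⟩
  obtain ⟨G, hG⟩ := h fun N => ∑ i ∈ range (P.a + 1), pn i (P.errMap D.F0 D.g 0) * D.Lam ^ N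
  have hL : 0 ≤ D.Lam := by linarith [D.one_le]
  obtain ⟨x, hx, hxv, hxa, -, hxe⟩ := hG D ((le_max_left _ _).trans hD) hsmall fun N i hi =>
    single_le_sum (f := fun i => pn i (P.errMap D.F0 D.g 0) * D.Lam ^ N)
      (fun i _ => mul_nonneg (pn_nonneg i _) (pow_nonneg hL N)) (mem_range.mpr (by omega))
  exact ⟨x, hx, hxv, hxa, hxe⟩

end

end Vale.Agent.P205.Correction
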