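import Vale.Agent.P205.Correction.Main

/-!
# P205: exact correction for one scalar equation of the error

For a bilinear map `Δ`, symmetric and real valued, the equation `Δ (E) (E) = 0` in the error
`E = B (D(F₀ + x)) (D(F₀ + x)) - g` is solved from a right inverse of its linearisation.  With the
mixed determinant for `Δ` it says that `E` has rank one.
-/

namespace Vale.Agent.P205.Correction

open scoped ContDiff
open Finset

noncomputable section

variable {V W : Type*} [NormedAddCommGroup V] [NormedSpace ℝ V] [NormedAddCommGroup W]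
  [NormedSpace ℝ W]

namespace Setup

variable (P : Setup V W) (Δ : W →L[ℝ] W →L[ℝ] ℝ)

/-- The scalar error of a correction. -/
def sErr (F0 : R2 → V) (g : R2 → W) (x : R2 → V) (p : R2) : ℝ :=
  Δ (P.errMap F0 g x p) (P.errMap F0 g x p)

lemma smooth2_sErr {F0 : R2 → V} {g : R2 → W} {x : R2 → V} (hF : Smooth2 F0) (hg : Smooth2 g)
    (hx : Smooth2 x) : Smooth2 (P.sErr Δ F0 g x) :=
  (P.smooth2_errMap hF hg hx).bilin (P.smooth2_errMap hF hg hx) Δ

/-- A local problem for the scalar equation. -/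
structure SProblem where
  /-- the large parameter -/
  Lam : ℝ
  /-- the base map -/
  F0 : R2 → V
  /-- the target -/
  g : R2 → W
  /-- the right inverse applied to the scalar error -/
  inv : P.corrSub → P.corrSub
  one_le : 1 ≤ Lam
  F0_smooth : Smooth2 F0
  g_smooth : Smooth2 g
  F0_le : ∀ i, pn i F0 ≤ P.K i * Lam ^ i
  g_le : ∀ i, pn i g ≤ P.K i * Lam ^ i
  symm : ∀ u v, Δ u v = Δ v u
  inv_eq : ∀ x, pn P.a x.1 ≤ Lam⁻¹ → ∀ p,
    2 * Δ (P.errMap F0 g x.1 p) (P.lin (fun q => F0 q + x.1 q) (inv x).1 p) = P.sErr Δ F0 g x.1 p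
  inv_sup : ∀ s x, Lam ≤ s → pn P.a x.1 ≤ Lam⁻¹ → P.Sup s x.1 → P.Sup s (inv x).1
  inv_le : ∀ i t δ x, Lam ≤ t → pn P.a x.1 ≤ Lam⁻¹ → (∀ j ≤ i + P.a, pn j x.1 ≤ t ^ (j - P.a)) →
    (∀ j ≤ i + P.a, pn j (P.sErr Δ F0 g x.1) ≤ δ * t ^ j) →
    pn i (inv x).1 ≤ P.CW i * Lam ^ (P.a * (i + 1)) * t ^ (i + P.a) * δ

/-- The constant of the product rule for `Δ`. -/
def deltaC (i : ℕ) : ℝ := bilinNorm Δ * (i + 1) * 2 ^ i * (i + 1)

omit [NormedAddCommGroup V] [NormedSpace ℝ V] in
lemma deltaC_nonneg (i : ℕ) : 0 ≤ deltaC Δ i := by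
  have := bilinNorm_nonneg Δ; unfold deltaC; positivity

omit [NormedAddCommGroup V] [NormedSpace ℝ V] in
lemma pn_delta_le {u v : R2 → W} (hu : Smooth2 u) (hv : Smooth2 v) (i : ℕ) {M : ℝ}
    (h : ∀ l ≤ i, pn l u * pn (i - l) v ≤ M) :
    pn i (fun p => Δ (u p) (v p)) ≤ deltaC Δ i * M := by
  refine (pn_bilin_le' hu hv Δ i).trans ?_
  rw [deltaC, mul_assoc _ ((i : ℝ) + 1) M]
  refine mul_le_mul_of_nonneg_left ?_ (by have := bilinNorm_nonneg Δ; positivity)
  exact (sum_le_card_nsmul (range (i + 1)) _ M fun l hl =>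
    h l (Nat.lt_succ_iff.mp (mem_range.mp hl))).trans_eq
      (by rw [card_range, nsmul_eq_mul]; push_cast; ring)

/-- A bound of the constants of all orders up to `i`. -/
def quadS (i : ℕ) : ℝ := ∑ l ∈ range (i + 1), P.quadC l

/-- The constant of the error of the metric equation. -/
def errC (i : ℕ) : ℝ := P.quadS i * (P.baseC i * P.baseC i) + ∑ l ∈ range (i + 1), |P.K l|

/-- The constant of the linearised equation. -/
def linC (i : ℕ) : ℝ := 2 * (P.quadS i * P.baseC i)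

lemma quadC_le {l i : ℕ} (hl : l ≤ i) : P.quadC l ≤ P.quadS i :=
  single_le_sum (fun m _ => P.quadC_nonneg m) (mem_range.mpr (by omega))

lemma quadS_nonneg (i : ℕ) : 0 ≤ P.quadS i := sum_nonneg fun m _ => P.quadC_nonneg m

lemma errC_nonneg (i : ℕ) : 0 ≤ P.errC i := by
  have := P.quadS_nonneg i; have := P.baseC_nonneg i; unfold errC; positivity

lemma linC_nonneg (i : ℕ) : 0 ≤ P.linC i := by
  have := P.quadS_nonneg i; have := P.baseC_nonneg i; unfold linC; positivity

variable {Δ} (D : P.SProblem Δ) {x : R2 → V} (hx : Smooth2 x) {i : ℕ} {t : ℝ} (ht : D.Lam ≤ t)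
  (hxt : ∀ j ≤ i + P.a, pn j x ≤ t ^ (j - P.a))
include hx ht hxt

lemma pn_sbase_le {l : ℕ} (hl : l ≤ i + 1) :
    pn l (fun q => D.F0 q + x q) ≤ P.baseC i * t ^ l := by
  have := P.a_ge
  have hL := D.one_le
  refine (pn_add_le D.F0_smooth hx l).trans ?_
  have h1 : pn l D.F0 ≤ |P.K l| * t ^ l := (D.F0_le l).trans
    (mul_le_mul (le_abs_self _) (pow_le_pow_left₀ (by linarith) ht l) (by positivity) (abs_nonneg _))
  have h2 : |P.K l| ≤ ∑ m ∈ range (i + 2), |P.K m| :=
    single_le_sum (fun m _ => abs_nonneg (P.K m)) (mem_range.mpr (by omega))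
  rw [baseC, add_mul, one_mul]
  exact add_le_add (h1.trans (mul_le_mul_of_nonneg_right h2 (pow_nonneg (by linarith) l)))
    ((hxt l (by omega)).trans (pow_le_pow_right₀ (by linarith) (Nat.sub_le l P.a)))

lemma pn_serr_le {l : ℕ} (hl : l ≤ i) :
    pn l (P.errMap D.F0 D.g x) ≤ P.errC i * t ^ (l + 2) := by
  have hL := D.one_le
  have ht1 : 1 ≤ t := by linarith
  have hA := P.baseC_nonneg i
  have hF := D.F0_smooth.add hx
  refine (pn_sub_le (hF.fderiv.bilin hF.fderiv P.B) D.g_smooth l).trans ?_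
  rw [errC, add_mul]
  refine add_le_add ((P.pn_quad_le hF hF l (M := P.baseC i * P.baseC i * t ^ (l + 2))
    fun m hm => ?_).trans ?_) ?_
  · refine (mul_le_mul (P.pn_sbase_le D hx ht hxt (show m + 1 ≤ i + 1 by omega))
      (P.pn_sbase_le D hx ht hxt (show l - m + 1 ≤ i + 1 by omega)) (pn_nonneg _ _)
      (by positivity)).trans_eq ?_
    rw [show l + 2 = (m + 1) + (l - m + 1) by omega, pow_add]
    ring
  · rw [mul_assoc (P.quadS i)]
    exact mul_le_mul_of_nonneg_right (P.quadC_le hl) (by positivity)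
  · refine ((D.g_le l).trans (mul_le_mul (le_abs_self _) ((pow_le_pow_left₀ (by linarith) ht l).trans
      (pow_le_pow_right₀ ht1 (Nat.le_add_right l 2))) (by positivity) (abs_nonneg _))).trans ?_
    exact mul_le_mul_of_nonneg_right (single_le_sum (f := fun m => |P.K m|)
      (fun m _ => abs_nonneg _) (mem_range.mpr (by omega))) (by positivity)

lemma pn_slin_le {w : R2 → V} (hw : Smooth2 w) {l : ℕ} (hl : l ≤ i) :
    pn l (P.lin (fun q => D.F0 q + x q) w) ≤ P.linC i * t ^ (l + 1) * pn (i + P.a) w := by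
  have := P.a_ge
  have hL := D.one_le
  have ht1 : 1 ≤ t := by linarith
  have hA := P.baseC_nonneg i
  have hF := D.F0_smooth.add hx
  have key : ∀ m ≤ l + 1, ∀ k ≤ l + 1, pn m (fun q => D.F0 q + x q) * pn k w
      ≤ P.baseC i * t ^ (l + 1) * pn (i + P.a) w := fun m hm k hk =>
    mul_le_mul ((P.pn_sbase_le D hx ht hxt (show m ≤ i + 1 by omega)).trans
      (mul_le_mul_of_nonneg_left (pow_le_pow_right₀ ht1 hm) hA)) (pn_mono (by omega) w)
      (pn_nonneg _ _) (by positivity)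
  have hp : 0 ≤ P.baseC i * t ^ (l + 1) * pn (i + P.a) w := by
    have := pn_nonneg (i + P.a) w; positivity
  refine (pn_add_le (hF.fderiv.bilin hw.fderiv P.B) (hw.fderiv.bilin hF.fderiv P.B) l).trans ?_
  refine (add_le_add (P.pn_quad_le hF hw l fun m hm => key (m + 1) (by omega) (l - m + 1) (by omega))
    (P.pn_quad_le hw hF l fun m hm => ?_)).trans
    ((add_le_add (mul_le_mul_of_nonneg_right (P.quadC_le hl) hp)
      (mul_le_mul_of_nonneg_right (P.quadC_le hl) hp)).trans_eq (by rw [linC]; ring))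
  rw [mul_comm]
  exact key (l - m + 1) (by omega) (m + 1) (by omega)

omit hx ht hxt in
lemma pn_ssq_le {v : R2 → V} (hv : Smooth2 v) {l : ℕ} (hl : l ≤ i) :
    pn l (fun p => P.B (fderiv ℝ v p) (fderiv ℝ v p)) ≤ P.quadS i * pn (i + P.a) v ^ 2 := by
  have := P.a_ge
  refine (P.pn_quad_le hv hv l (M := pn (i + P.a) v ^ 2) fun m hm => ?_).trans
    (mul_le_mul_of_nonneg_right (P.quadC_le hl) (sq_nonneg _))
  rw [sq]
  exact mul_le_mul (pn_mono (by omega) _) (pn_mono (by omega) _) (pn_nonneg _ _) (pn_nonneg _ _)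

omit hx ht hxt

variable (Δ) in
/-- The constant of the step of the scalar equation. -/
def stepC (i : ℕ) : ℝ :=
  2 * (deltaC Δ i * (P.errC i * P.linC i)) + 2 * (deltaC Δ i * (P.errC i * P.quadS i))
    + deltaC Δ i * ((P.quadS i + P.linC i) * (P.quadS i + P.linC i))

lemma stepC_nonneg (i : ℕ) : 0 ≤ P.stepC Δ i := by
  have := deltaC_nonneg Δ i
  have := P.errC_nonneg i; have := P.linC_nonneg i; have := P.quadS_nonneg i
  unfold stepC
  positivity

/-- The scalar error after a step of size at most one. -/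
lemma pn_sErr_step (x v w : P.corrSub) (hv1 : pn (i + P.a) v.1 ≤ 1) (ht : D.Lam ≤ t)
    (hxt : ∀ j ≤ i + P.a, pn j x.1 ≤ t ^ (j - P.a))
    (he : ∀ p, 2 * Δ (P.errMap D.F0 D.g x.1 p) (P.lin (fun q => D.F0 q + x.1 q) w.1 p)
      = P.sErr Δ D.F0 D.g x.1 p) :
    pn i (P.sErr Δ D.F0 D.g (x.1 - v.1)) ≤
      P.stepC Δ i * t ^ (i + P.a) * (pn (i + P.a) (w.1 - v.1) + pn (i + P.a) v.1 ^ 2) := by
  have := P.a_ge
  have hL := D.one_le
  have ht1 : 1 ≤ t := by linarith
  have hF := D.F0_smooth.add x.2.1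
  have hwv : Smooth2 (w.1 - v.1) := w.2.1.sub v.2.1
  set E := P.errMap D.F0 D.g x.1
  set Q : R2 → W := fun p => P.B (fderiv ℝ v.1 p) (fderiv ℝ v.1 p)
  set G : R2 → W := fun p => Q p - P.lin (fun q => D.F0 q + x.1 q) v.1 p
  have hE : Smooth2 E := P.smooth2_errMap D.F0_smooth D.g_smooth x.2.1
  have hQ : Smooth2 Q := v.2.1.fderiv.bilin v.2.1.fderiv P.B
  have hG : Smooth2 G := hQ.sub (P.smooth2_lin hF v.2.1)
  have e : P.sErr Δ D.F0 D.g (x.1 - v.1) = fun p =>
      (2 : ℝ) • Δ (E p) (P.lin (fun q => D.F0 q + x.1 q) (w.1 - v.1) p)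
        + ((2 : ℝ) • Δ (E p) (Q p) + Δ (G p) (G p)) := by
    funext p
    have hd := (hF.1.differentiable (by simp)).differentiableAt (x := p)
    have hdv := (v.2.1.1.differentiable (by simp)).differentiableAt (x := p)
    have hdw := (w.2.1.1.differentiable (by simp)).differentiableAt (x := p)
    have e1 : fderiv ℝ (fun q => D.F0 q + (x.1 - v.1) q) p
        = fderiv ℝ (fun q => D.F0 q + x.1 q) p - fderiv ℝ v.1 p := by
      rw [show (fun q => D.F0 q + (x.1 - v.1) q) = (fun q => D.F0 q + x.1 q) - v.1 from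
        funext fun q => by simp only [Pi.sub_apply]; abel]
      exact fderiv_sub hd hdv
    have e2 : P.errMap D.F0 D.g (x.1 - v.1) p = E p + G p := by
      simp only [E, G, Q, errMap, lin, e1, map_sub, sub_apply]
      abel
    have e3 : P.lin (fun q => D.F0 q + x.1 q) (w.1 - v.1) p =
        P.lin (fun q => D.F0 q + x.1 q) w.1 p - P.lin (fun q => D.F0 q + x.1 q) v.1 p := by
      simp only [lin, fderiv_sub hdw hdv, map_sub, sub_apply]
      abel
    have h := he p
    show Δ (P.errMap D.F0 D.g (x.1 - v.1) p) (P.errMap D.F0 D.g (x.1 - v.1) p) = _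
    rw [e2, e3]
    simp only [sErr] at h
    simp only [G, map_sub, map_add, sub_apply, _root_.add_apply, smul_eq_mul, E, D.symm (Q p),
      D.symm (P.lin (fun q => D.F0 q + x.1 q) v.1 p) (P.errMap D.F0 D.g x.1 p)] at h ⊢
    linarith
  rw [e]
  set s := pn (i + P.a) v.1
  set d := pn (i + P.a) (w.1 - v.1)
  have hs : 0 ≤ s := pn_nonneg _ _
  have hd0 : 0 ≤ d := pn_nonneg _ _
  have hE' := fun l (hl : l ≤ i) => P.pn_serr_le D x.2.1 ht hxt hl
  have hC := P.errC_nonneg i
  have hlC := P.linC_nonneg i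
  have hqC := P.quadS_nonneg i
  have hdC := deltaC_nonneg Δ i
  have b1 : pn i (fun p => Δ (E p) (P.lin (fun q => D.F0 q + x.1 q) (w.1 - v.1) p)) ≤
      deltaC Δ i * (P.errC i * P.linC i * t ^ (i + P.a) * d) :=
    pn_delta_le Δ hE (P.smooth2_lin hF hwv) i fun l hl => by
      refine (mul_le_mul (hE' l hl) (P.pn_slin_le D x.2.1 ht hxt hwv (show i - l ≤ i by omega))
        (pn_nonneg _ _) (by positivity)).trans ?_
      calc P.errC i * t ^ (l + 2) * (P.linC i * t ^ (i - l + 1) * d)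
          = P.errC i * P.linC i * t ^ (l + 2 + (i - l + 1)) * d := by rw [pow_add]; ring
        _ ≤ _ := by gcongr ?_ * _; exact mul_le_mul_of_nonneg_left (pow_le_pow_right₀ ht1 (by omega)) (by positivity)
  have b2 : pn i (fun p => Δ (E p) (Q p)) ≤
      deltaC Δ i * (P.errC i * P.quadS i * t ^ (i + P.a) * s ^ 2) :=
    pn_delta_le Δ hE hQ i fun l hl => by
      refine (mul_le_mul (hE' l hl) (P.pn_ssq_le v.2.1 (show i - l ≤ i by omega))
        (pn_nonneg _ _) (by positivity)).trans ?_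
      calc P.errC i * t ^ (l + 2) * (P.quadS i * s ^ 2)
          = P.errC i * P.quadS i * t ^ (l + 2) * s ^ 2 := by ring
        _ ≤ _ := by gcongr ?_ * _; exact mul_le_mul_of_nonneg_left (pow_le_pow_right₀ ht1 (by omega)) (by positivity)
  have hG' : ∀ l ≤ i, pn l G ≤ (P.quadS i + P.linC i) * (t ^ (l + 1) * s) := fun l hl => by
    refine (pn_sub_le hQ (P.smooth2_lin hF v.2.1) l).trans ?_
    rw [add_mul]
    refine add_le_add ((P.pn_ssq_le v.2.1 hl).trans (mul_le_mul_of_nonneg_left ?_ hqC))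
      ((P.pn_slin_le D x.2.1 ht hxt v.2.1 hl).trans_eq (mul_assoc _ _ _))
    rw [sq]
    exact mul_le_mul_of_nonneg_right (hv1.trans (one_le_pow₀ ht1)) hs
  have b3 : pn i (fun p => Δ (G p) (G p)) ≤
      deltaC Δ i * ((P.quadS i + P.linC i) * (P.quadS i + P.linC i) * t ^ (i + P.a) * s ^ 2) :=
    pn_delta_le Δ hG hG i fun l hl => by
      refine (mul_le_mul (hG' l hl) (hG' (i - l) (by omega)) (pn_nonneg _ _)
        (by positivity)).trans ?_
      calc (P.quadS i + P.linC i) * (t ^ (l + 1) * s) * ((P.quadS i + P.linC i) * (t ^ (i - l + 1) * s))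
          = (P.quadS i + P.linC i) * (P.quadS i + P.linC i) * t ^ (l + 1 + (i - l + 1)) * s ^ 2 := by
            rw [pow_add]; ring
        _ ≤ _ := by gcongr ?_ * _; exact mul_le_mul_of_nonneg_left (pow_le_pow_right₀ ht1 (by omega)) (by positivity)
  have sm1 : Smooth2 fun p => Δ (E p) (P.lin (fun q => D.F0 q + x.1 q) (w.1 - v.1) p) :=
    hE.bilin (P.smooth2_lin hF hwv) Δ
  have sm2 : Smooth2 fun p => Δ (E p) (Q p) := hE.bilin hQ Δ
  refine (pn_add_le (sm1.const_smul (2 : ℝ)) ((sm2.const_smul (2 : ℝ)).add (hG.bilin hG Δ)) i).trans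
    ((add_le_add (pn_smul_le sm1 2 i) ((pn_add_le (sm2.const_smul (2 : ℝ)) (hG.bilin hG Δ) i).trans
      (add_le_add (pn_smul_le sm2 2 i) le_rfl))).trans ?_)
  rw [abs_two]
  refine (add_le_add (mul_le_mul_of_nonneg_left b1 zero_le_two)
    (add_le_add (mul_le_mul_of_nonneg_left b2 zero_le_two) b3)).trans ?_
  have ht0 : 0 ≤ t ^ (i + P.a) := by positivity
  unfold stepC
  nlinarith [mul_nonneg (mul_nonneg (mul_nonneg hdC hC) hlC) (mul_nonneg ht0 (sq_nonneg s)),
    mul_nonneg (mul_nonneg (mul_nonneg hdC hC) hqC) (mul_nonneg ht0 hd0),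
    mul_nonneg (mul_nonneg hdC (mul_self_nonneg (P.quadS i + P.linC i))) (mul_nonneg ht0 hd0)]

variable [FiniteDimensional ℝ V]

variable (Δ) in
/-- The constants of the scalar instance. -/
def sInstC (i : ℕ) : ℝ := P.instC i + deltaC Δ i * (P.errC i * P.errC i) + P.stepC Δ i

lemma sInstC_ge (i : ℕ) : P.instC i ≤ P.sInstC Δ i ∧
    deltaC Δ i * (P.errC i * P.errC i) ≤ P.sInstC Δ i ∧ P.stepC Δ i ≤ P.sInstC Δ i := by
  have h1 : 0 ≤ P.instC i := (abs_nonneg _).trans (P.instC_ge i).1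
  have h2 := mul_nonneg (deltaC_nonneg Δ i) (mul_self_nonneg (P.errC i))
  have h3 := P.stepC_nonneg (Δ := Δ) i
  unfold sInstC
  refine ⟨?_, ?_, ?_⟩ <;> linarith

/-- The abstract data of the scalar problem. -/
def sInstData (D : P.SProblem Δ) : Newton.Data (P.corrSub) where
  a := P.a
  C := P.sInstC Δ
  Lam := D.Lam
  rho := D.Lam⁻¹
  p i x := pn i x.1
  err i x := pn i (P.sErr Δ D.F0 D.g x.1)
  S := P.stage
  W := D.inv
  Sup t x := P.Sup t x.1
  p_nonneg i x := pn_nonneg i x.1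
  err_nonneg i x := pn_nonneg i _
  p_zero i := by
    refine le_antisymm (le_of_le_of_eq (pn_le_of_supD (C := fun _ => (0 : ℝ)) fun m _ =>
      supD_le fun x => ?_) sum_const_zero) (pn_nonneg i _)
    simp
  p_sub i x y := pn_sub_le x.2.1 y.2.1 i
  p_mono i j x h := pn_mono h x.1
  sup_zero s p _ := rfl
  sup_step s t x hs hst _ hx := P.stage_step (D.one_le.trans hs) hst hx (D.inv x)
  smooth_le i s t x hs hst _ _ :=
    (P.stage_smooth_le (by linarith [D.one_le]) (D.inv x) i).trans (mul_le_mul_of_nonneg_right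
      (mul_le_mul_of_nonneg_right ((P.instC_ge i).2.1.trans (P.sInstC_ge i).1)
        (pow_nonneg (by linarith [D.one_le]) _)) (pn_nonneg 0 _))
  smooth_err i k s t x hik hs hst hr hx :=
    (P.stage_err_le hik (D.one_le.trans hs) hst (D.inv x) (D.inv_sup s x hs hr hx)).trans
      (mul_le_mul_of_nonneg_right (mul_le_mul_of_nonneg_right
        ((P.instC_ge k).2.2.1.trans (P.sInstC_ge k).1) (pow_nonneg (by linarith [D.one_le]) _))
        (pn_nonneg k _))
  W_le i t δ x ht hr hx he := by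
    have hL := D.one_le
    have hδ : 0 ≤ δ := by simpa using (pn_nonneg 0 _).trans (he 0 (Nat.zero_le _))
    refine (D.inv_le i t δ x ht hr hx he).trans ?_
    have h1 : P.CW i ≤ P.sInstC Δ i :=
      (le_abs_self _).trans ((P.instC_ge i).1.trans (P.sInstC_ge i).1)
    have ht0 : 0 ≤ t := by linarith
    gcongr
  err_le i t x ht _ hx := by
    have hL := D.one_le
    have ht1 : 1 ≤ t := by linarith
    have := P.a_ge
    have hC := P.errC_nonneg i
    have hE := P.smooth2_errMap D.F0_smooth D.g_smooth x.2.1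
    refine (pn_delta_le Δ hE hE i (M := P.errC i * P.errC i * t ^ (i + P.a)) fun l hl => ?_).trans ?_
    · refine (mul_le_mul (P.pn_serr_le D x.2.1 ht hx hl)
        (P.pn_serr_le D x.2.1 ht hx (show i - l ≤ i by omega)) (pn_nonneg _ _)
        (by positivity)).trans ?_
      calc P.errC i * t ^ (l + 2) * (P.errC i * t ^ (i - l + 2))
          = P.errC i * P.errC i * t ^ (l + 2 + (i - l + 2)) := by rw [pow_add]; ring
        _ ≤ _ := mul_le_mul_of_nonneg_left (pow_le_pow_right₀ ht1 (by omega)) (by positivity)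
    · rw [← mul_assoc]
      exact mul_le_mul_of_nonneg_right (P.sInstC_ge i).2.1 (by positivity)
  err_step i t x v ht hr hx hv := by
    refine (P.pn_sErr_step D x v (D.inv x) hv ht hx (D.inv_eq x hr)).trans ?_
    have hp : 0 ≤ pn (i + P.a) ((D.inv x).1 - v.1) + pn (i + P.a) v.1 ^ 2 := by
      have := pn_nonneg (i + P.a) ((D.inv x).1 - v.1); positivity
    exact mul_le_mul_of_nonneg_right (mul_le_mul_of_nonneg_right (P.sInstC_ge i).2.2
      (pow_nonneg (by linarith [D.one_le]) _)) hp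

end Setup

variable [FiniteDimensional ℝ V]

/-- Exact correction for the scalar equation. -/
theorem exists_scalar_exact_bound (P : Setup V W) (Δ : W →L[ℝ] W →L[ℝ] ℝ) :
    ∃ Lam₀ : ℝ, ∀ E : ℕ → ℝ, ∃ G : ℕ → ℕ → ℝ, ∀ D : P.SProblem Δ, Lam₀ ≤ D.Lam →
      (∀ i ≤ P.a, pn i (P.sErr Δ D.F0 D.g 0) * D.Lam ^ Newton.smallExp P.a ≤ 1) →
      (∀ N, ∀ i ≤ P.a, pn i (P.sErr Δ D.F0 D.g 0) * D.Lam ^ N ≤ E N) →
      ∃ x : R2 → V, Smooth2 x ∧ (∀ p, 2 * P.R ≤ P.radial p → x p = 0) ∧ pn P.a x ≤ D.Lam⁻¹ ∧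
        (∀ i m, pn i x * D.Lam ^ m ≤ G i m) ∧ ∀ p, P.sErr Δ D.F0 D.g x p = 0 := by
  refine ⟨2 + ∑ i ∈ range (Newton.order P.a + 1), |P.sInstC Δ i|, fun E => ?_⟩
  obtain ⟨G, -, hG⟩ := Newton.exists_solution_bound (X := P.corrSub) P.a (P.sInstC Δ) E
  refine ⟨fun i m => G i m * 2, fun D hD hsmall hE => ?_⟩
  have h1 : 0 ≤ ∑ i ∈ range (Newton.order P.a + 1), |P.sInstC Δ i| :=
    sum_nonneg fun i _ => abs_nonneg _
  have hL : 0 < D.Lam := by linarith
  obtain ⟨u, T, hu0, hu, hinc, he⟩ := hG (P.sInstData D) rfl rfl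
    (show (2 : ℝ) ≤ D.Lam by linarith)
    le_rfl
    (fun i hi => show |P.sInstC Δ i| ≤ D.Lam from
      le_trans (single_le_sum (s := range (Newton.order P.a + 1))
        (fun n _ => abs_nonneg (P.sInstC Δ n)) (mem_range.mpr (Nat.lt_succ_of_le hi))) (by linarith))
    (fun i hi => hsmall i hi) (fun N i hi => hE N i hi)
  have hinc' : ∀ i m n, pn i (u (n + 1) - u n).1 ≤ G i m / D.Lam ^ m * (1 / 2) ^ n := fun i m n =>
    (hinc i m n).trans_eq (by show G i m * (1 / 2) ^ n / D.Lam ^ m = _; ring)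
  have hgeo := summable_geometric_of_lt_one (r := (1 / 2 : ℝ)) (by norm_num) (by norm_num)
  have hs : ∀ i, Summable fun n => pn i (u (n + 1) - u n).1 := fun i =>
    (hgeo.mul_left _).of_nonneg_of_le (fun n => pn_nonneg i _) (hinc' i 0)
  obtain ⟨x, hx, hxv, hxa, hxs, hder⟩ :=
    P.exists_limit D.one_le D.F0_smooth u T hu0 (fun n => ⟨(hu n).1, (hu n).2.2⟩) hs
  refine ⟨x, hx, hxv, hxa, fun i m => ?_, fun q => ?_⟩
  · have h : pn i x ≤ G i m / D.Lam ^ m * 2 :=
      ((hxs i).trans ((hs i).tsum_le_tsum (hinc' i m) (hgeo.mul_left _))).trans_eq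
        (by rw [tsum_mul_left, tsum_geometric_of_lt_one (by norm_num) (by norm_num)]; norm_num)
    rw [div_mul_eq_mul_div, le_div_iff₀ (pow_pos hL m)] at h
    exact h
  · have h1 : Filter.Tendsto (fun N => P.sErr Δ D.F0 D.g (u N).1 q) Filter.atTop
        (nhds (P.sErr Δ D.F0 D.g x q)) :=
      ((Δ.continuous.clm_apply continuous_id).tendsto _).comp
        ((((P.B.continuous.clm_apply continuous_id).tendsto _).comp (hder q)).sub_const _)
    refine tendsto_nhds_unique h1 (squeeze_zero_norm (fun N => ?_) (he 0 (Nat.zero_le _)))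
    exact norm_le_pn (P.smooth2_sErr Δ D.F0_smooth D.g_smooth (u N).2.1) 0 q

end

end Vale.Agent.P205.Correction
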