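import Mathlib
import Vale.Agent.P205.Defs
import Vale.Agent.P205.Fourier.Coeff

/-!
# P205: sup seminorms of smooth periodic maps of the plane

`supD m u` is the supremum of the norm of the `m`-th derivative and `pn j u` is their sum for
`m ≤ j`.
-/

namespace Vale.Agent.P205.Correction

open scoped ContDiff
open Finset

noncomputable section

variable {V W X : Type*} [NormedAddCommGroup V] [NormedSpace ℝ V] [NormedAddCommGroup W]
  [NormedSpace ℝ W] [NormedAddCommGroup X] [NormedSpace ℝ X]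

/-- Smooth doubly periodic maps. -/
def Smooth2 (u : R2 → V) : Prop := ContDiff ℝ ∞ u ∧ Periodic2 (1, 0) (0, 1) u

/-- The supremum of the norm of the `m`-th derivative. -/
def supD (m : ℕ) (u : R2 → V) : ℝ := ⨆ x, ‖iteratedFDeriv ℝ m u x‖

/-- The seminorm of order `j`. -/
def pn (j : ℕ) (u : R2 → V) : ℝ := ∑ m ∈ range (j + 1), supD m u

lemma bddAbove_periodic {g : R2 → ℝ} (hc : Continuous g) (hp : Periodic2 (1, 0) (0, 1) g) :
    BddAbove (Set.range g) := by
  obtain ⟨C, hC⟩ := Four.bdd_of_periodic (g := fun x => (g x : ℂ))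
    (Complex.continuous_ofReal.comp hc)
    ⟨fun p => by simp only [hp.1], fun p => by simp only [hp.2]⟩
  refine ⟨C, ?_⟩
  rintro _ ⟨x, rfl⟩
  exact (le_abs_self _).trans (by simpa using hC x)

lemma Smooth2.periodic_iteratedFDeriv {u : R2 → V} (hu : Smooth2 u) (m : ℕ) :
    Periodic2 (1, 0) (0, 1) (iteratedFDeriv ℝ m u) := by
  constructor <;> intro p
  · rw [← iteratedFDeriv_comp_add_right]; exact congrArg (iteratedFDeriv ℝ m · p) (funext hu.2.1)
  · rw [← iteratedFDeriv_comp_add_right]; exact congrArg (iteratedFDeriv ℝ m · p) (funext hu.2.2)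

lemma Smooth2.bddAbove {u : R2 → V} (hu : Smooth2 u) (m : ℕ) :
    BddAbove (Set.range fun x => ‖iteratedFDeriv ℝ m u x‖) :=
  bddAbove_periodic (hu.1.continuous_iteratedFDeriv (by exact_mod_cast le_top)).norm
    ⟨fun p => by simp only [(hu.periodic_iteratedFDeriv m).1],
      fun p => by simp only [(hu.periodic_iteratedFDeriv m).2]⟩

lemma le_supD {u : R2 → V} (hu : Smooth2 u) (m : ℕ) (x : R2) :
    ‖iteratedFDeriv ℝ m u x‖ ≤ supD m u := le_ciSup (hu.bddAbove m) x

lemma supD_nonneg (m : ℕ) (u : R2 → V) : 0 ≤ supD m u := Real.iSup_nonneg fun _ => norm_nonneg _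

lemma supD_le {u : R2 → V} {m : ℕ} {C : ℝ} (h : ∀ x, ‖iteratedFDeriv ℝ m u x‖ ≤ C) :
    supD m u ≤ C := ciSup_le h

lemma pn_nonneg (j : ℕ) (u : R2 → V) : 0 ≤ pn j u := sum_nonneg fun m _ => supD_nonneg m u

lemma supD_le_pn {m j : ℕ} (h : m ≤ j) (u : R2 → V) : supD m u ≤ pn j u :=
  single_le_sum (fun i _ => supD_nonneg i u) (mem_range.mpr (by omega))

lemma pn_mono {i j : ℕ} (h : i ≤ j) (u : R2 → V) : pn i u ≤ pn j u :=
  sum_le_sum_of_subset_of_nonneg (range_subset_range.mpr (by omega)) fun m _ _ => supD_nonneg m u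

lemma pn_le_of_supD {j : ℕ} {u : R2 → V} {C : ℕ → ℝ} (h : ∀ m ≤ j, supD m u ≤ C m) :
    pn j u ≤ ∑ m ∈ range (j + 1), C m :=
  sum_le_sum fun m hm => h m (Nat.lt_succ_iff.mp (mem_range.mp hm))

lemma norm_le_pn {u : R2 → V} (hu : Smooth2 u) (j : ℕ) (x : R2) : ‖u x‖ ≤ pn j u := by
  rw [← norm_iteratedFDeriv_zero (𝕜 := ℝ) (f := u) (x := x)]
  exact (le_supD hu 0 x).trans (supD_le_pn (Nat.zero_le j) u)

lemma Smooth2.zero : Smooth2 (fun _ => 0 : R2 → V) :=
  ⟨contDiff_const, fun _ => rfl, fun _ => rfl⟩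

lemma Smooth2.add {u v : R2 → V} (hu : Smooth2 u) (hv : Smooth2 v) :
    Smooth2 (fun x => u x + v x) :=
  ⟨hu.1.add hv.1, fun p => by simp only [hu.2.1, hv.2.1], fun p => by simp only [hu.2.2, hv.2.2]⟩

lemma Smooth2.const_smul {u : R2 → V} (hu : Smooth2 u) (a : ℝ) : Smooth2 (fun x => a • u x) :=
  ⟨hu.1.const_smul a, fun p => by simp only [hu.2.1], fun p => by simp only [hu.2.2]⟩

lemma Smooth2.sub {u v : R2 → V} (hu : Smooth2 u) (hv : Smooth2 v) :
    Smooth2 (fun x => u x - v x) :=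
  ⟨hu.1.sub hv.1, fun p => by simp only [hu.2.1, hv.2.1], fun p => by simp only [hu.2.2, hv.2.2]⟩

lemma Smooth2.clm {u : R2 → V} (hu : Smooth2 u) (L : V →L[ℝ] W) : Smooth2 (fun x => L (u x)) :=
  ⟨L.contDiff.comp hu.1, fun p => by simp only [hu.2.1], fun p => by simp only [hu.2.2]⟩

lemma Smooth2.fderiv {u : R2 → V} (hu : Smooth2 u) : Smooth2 (fderiv ℝ u) :=
  ⟨hu.1.fderiv_right (m := ∞) le_rfl,
    fun p => by rw [← fderiv_comp_add_right]; exact congrArg (_root_.fderiv ℝ · p) (funext hu.2.1),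
    fun p => by rw [← fderiv_comp_add_right]; exact congrArg (_root_.fderiv ℝ · p) (funext hu.2.2)⟩

lemma Smooth2.bilin {u : R2 → V} {v : R2 → W} (hu : Smooth2 u) (hv : Smooth2 v)
    (B : V →L[ℝ] W →L[ℝ] X) : Smooth2 (fun x => B (u x) (v x)) :=
  ⟨(B.contDiff.comp hu.1).clm_apply hv.1,
    fun p => by simp only [hu.2.1, hv.2.1], fun p => by simp only [hu.2.2, hv.2.2]⟩

lemma pn_add_le {u v : R2 → V} (hu : Smooth2 u) (hv : Smooth2 v) (j : ℕ) :
    pn j (fun x => u x + v x) ≤ pn j u + pn j v := by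
  rw [pn, pn, pn, ← sum_add_distrib]
  refine sum_le_sum fun m _ => supD_le fun x => ?_
  rw [show (fun x => u x + v x) = u + v from rfl,
    iteratedFDeriv_add_apply (hu.1.of_le (by exact_mod_cast le_top)).contDiffAt
      (hv.1.of_le (by exact_mod_cast le_top)).contDiffAt]
  exact (norm_add_le _ _).trans (add_le_add (le_supD hu m x) (le_supD hv m x))

lemma pn_smul_le {u : R2 → V} (hu : Smooth2 u) (a : ℝ) (j : ℕ) :
    pn j (fun x => a • u x) ≤ |a| * pn j u := by
  rw [pn, pn, mul_sum]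
  refine sum_le_sum fun m _ => supD_le fun x => ?_
  rw [iteratedFDeriv_const_smul_apply' (hu.1.of_le (by exact_mod_cast le_top)).contDiffAt,
    norm_smul, Real.norm_eq_abs]
  exact mul_le_mul_of_nonneg_left (le_supD hu m x) (abs_nonneg a)

lemma pn_neg {u : R2 → V} (j : ℕ) : pn j (fun x => -u x) = pn j u := by
  refine sum_congr rfl fun m _ => ?_
  simp only [supD]
  refine congrArg iSup (funext fun x => ?_)
  rw [show (fun x => -u x) = -u from rfl, iteratedFDeriv_neg_apply, norm_neg]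

lemma pn_sub_le {u v : R2 → V} (hu : Smooth2 u) (hv : Smooth2 v) (j : ℕ) :
    pn j (fun x => u x - v x) ≤ pn j u + pn j v := by
  simp only [sub_eq_add_neg]
  refine (pn_add_le hu (v := fun x => -v x) ⟨hv.1.neg, fun p => by simp only [hv.2.1],
    fun p => by simp only [hv.2.2]⟩ j).trans ?_
  rw [pn_neg]

lemma pn_clm_le {u : R2 → V} (hu : Smooth2 u) (L : V →L[ℝ] W) (j : ℕ) :
    pn j (fun x => L (u x)) ≤ ‖L‖ * pn j u := by
  rw [pn, pn, mul_sum]
  refine sum_le_sum fun m _ => supD_le fun x => ?_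
  exact (L.norm_iteratedFDeriv_comp_left hu.1.contDiffAt (by exact_mod_cast le_top)).trans
    (mul_le_mul_of_nonneg_left (le_supD hu m x) (norm_nonneg _))

lemma pn_fderiv_le {u : R2 → V} (hu : Smooth2 u) (j : ℕ) :
    pn j (fderiv ℝ u) ≤ pn (j + 1) u := by
  have h : ∀ m, supD m (fderiv ℝ u) = supD (m + 1) u := fun m => by
    simp only [supD, norm_iteratedFDeriv_fderiv]
  rw [pn, pn, sum_range_succ' _ (j + 1)]
  simp only [h]
  linarith [supD_nonneg 0 u]

/-- Leibniz's rule for a continuous bilinear map. -/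
lemma pn_bilin_le {u : R2 → V} {v : R2 → W} (hu : Smooth2 u) (hv : Smooth2 v)
    (B : V →L[ℝ] W →L[ℝ] X) (j : ℕ) :
    pn j (fun x => B (u x) (v x))
      ≤ ‖B‖ * (j + 1) * 2 ^ j * ∑ i ∈ range (j + 1), pn i u * pn (j - i) v := by
  set Sg := ∑ i ∈ range (j + 1), pn i u * pn (j - i) v with hS
  have hm : ∀ m ≤ j, supD m (fun x => B (u x) (v x)) ≤ ‖B‖ * 2 ^ j * Sg := by
    intro m hm
    refine supD_le fun x => (B.norm_iteratedFDeriv_le_of_bilinear hu.1 hv.1 x
      (by exact_mod_cast le_top)).trans ?_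
    rw [mul_assoc]
    refine mul_le_mul_of_nonneg_left ?_ (norm_nonneg B)
    rw [hS, mul_sum]
    refine (sum_le_sum fun i hi => ?_).trans (sum_le_sum_of_subset_of_nonneg
      (range_subset_range.mpr (by omega)) fun i _ _ => by
        have := pn_nonneg i u; have := pn_nonneg (j - i) v; positivity)
    have hi' : i ≤ m := Nat.lt_succ_iff.mp (mem_range.mp hi)
    have hc : (m.choose i : ℝ) ≤ 2 ^ j := by
      have h1 : m.choose i ≤ 2 ^ j :=
        (Nat.choose_le_two_pow m i).trans (Nat.pow_le_pow_right (by norm_num) hm)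
      exact_mod_cast h1
    rw [mul_assoc]
    refine mul_le_mul hc (mul_le_mul ((le_supD hu i x).trans (supD_le_pn le_rfl u))
      ((le_supD hv (m - i) x).trans (supD_le_pn (by omega) v)) (norm_nonneg _) (pn_nonneg i u))
      (by positivity) (by positivity)
  refine (pn_le_of_supD hm).trans (le_of_eq ?_)
  rw [sum_const, card_range, nsmul_eq_mul]
  push_cast
  ring

/-- Maps with all seminorms summable have a smooth periodic sum. -/
theorem exists_sum [CompleteSpace V] {v : ℕ → R2 → V} (hv : ∀ n, Smooth2 (v n))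
    (hs : ∀ j, Summable fun n => pn j (v n)) :
    Smooth2 (fun x => ∑' n, v n x) ∧
      ∀ j N, pn j (fun x => (∑' n, v n x) - ∑ n ∈ range N, v n x) ≤ ∑' n, pn j (v (n + N)) := by
  have hsum : ∀ N, Smooth2 (fun x => ∑' n, v (n + N) x) ∧
      ∀ j, pn j (fun x => ∑' n, v (n + N) x) ≤ ∑' n, pn j (v (n + N)) := by
    intro N
    have hk : ∀ k : ℕ, Summable fun n => supD k (v (n + N)) := fun k =>
      ((summable_nat_add_iff N).mpr (hs k)).of_nonneg_of_le (fun n => supD_nonneg k _)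
        fun n => supD_le_pn le_rfl _
    have hcd : ContDiff ℝ ∞ fun x => ∑' n, v (n + N) x :=
      contDiff_tsum (fun n => (hv (n + N)).1) (fun k _ => hk k)
        fun k n x _ => le_supD (hv (n + N)) k x
    refine ⟨⟨hcd, fun p => tsum_congr fun n => (hv _).2.1 p,
      fun p => tsum_congr fun n => (hv _).2.2 p⟩, fun j => ?_⟩
    simp only [pn]
    rw [Summable.tsum_finsetSum fun k _ => hk k]
    refine sum_le_sum fun k _ => supD_le fun x => ?_
    rw [iteratedFDeriv_tsum_apply (N := (⊤ : ℕ∞)) (fun n => (hv (n + N)).1) (fun k _ => hk k)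
      (fun k n x _ => le_supD (hv (n + N)) k x) le_top]
    exact tsum_of_norm_bounded (hk k).hasSum fun n => le_supD (hv (n + N)) k x
  refine ⟨by simpa using (hsum 0).1, fun j N => ?_⟩
  have hx : ∀ x, Summable fun n => v n x := fun x =>
    Summable.of_norm_bounded (hs 0) fun n => norm_le_pn (hv n) 0 x
  have e : (fun x => (∑' n, v n x) - ∑ n ∈ range N, v n x) = fun x => ∑' n, v (n + N) x :=
    funext fun x => by rw [← (hx x).sum_add_tsum_nat_add N, add_sub_cancel_left]
  rw [e]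
  exact (hsum N).2 j

end

end Vale.Agent.P205.Correction
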