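import Vale.Agent.P205.Correction.Seminorm

/-!
# P205: smoothing operators for smooth periodic maps of the plane

`smoothing_fst` and `smoothing_snd` are the two smoothing inequalities for the seminorms `pn`
with loss `8`: the operator `smo χ t` is multiplication by a cutoff `χ` composed with the
truncation of the double Fourier series at frequency `t`.
-/

namespace Vale.Agent.P205.Correction

open scoped ContDiff Real
open Finset

noncomputable section

variable {V W : Type*} [NormedAddCommGroup V] [NormedSpace ℝ V] [NormedAddCommGroup W]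
  [NormedSpace ℝ W]

lemma supD_clm_le {u : R2 → V} (hu : Smooth2 u) (L : V →L[ℝ] W) (m : ℕ) :
    supD m (fun x => L (u x)) ≤ ‖L‖ * supD m u :=
  supD_le fun x => (L.norm_iteratedFDeriv_comp_left hu.1.contDiffAt (by exact_mod_cast le_top)).trans
    (mul_le_mul_of_nonneg_left (le_supD hu m x) (norm_nonneg _))

noncomputable local instance : MeasureTheory.MeasureSpace UnitAddCircle :=
  ⟨AddCircle.haarAddCircle⟩

local instance : MeasureTheory.IsProbabilityMeasure
    (MeasureTheory.volume : MeasureTheory.Measure UnitAddCircle) :=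
  inferInstanceAs (MeasureTheory.IsProbabilityMeasure AddCircle.haarAddCircle)

lemma norm_fcoef_le_supD {f : R2 → ℂ} (hf : Smooth2 f) (k : Four.K) :
    ‖Four.fcoef f k‖ ≤ supD 0 f := by
  refine (MeasureTheory.norm_integral_le_of_norm_le_const
    (Filter.Eventually.of_forall fun t => ?_)).trans_eq
    (by rw [MeasureTheory.probReal_univ, mul_one])
  rw [norm_smul]
  refine (mul_le_mul ((UnitAddTorus.mFourier (-k)).norm_coe_le_norm t)
    (b := ‖(UnitAddTorus.mFourier (-k) : C(Four.T2, ℂ))‖) (d := supD 0 f) ?_ (norm_nonneg _)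
    (norm_nonneg _)).trans_eq ?_
  · rw [Four.liftT, ← norm_iteratedFDeriv_zero (𝕜 := ℝ) (f := f) (x := Four.rep t)]
    exact le_supD hf 0 _
  · rw [UnitAddTorus.mFourier_norm, one_mul]

lemma dmul_pow_mul_le (v : R2) (k : Four.K) (m : ℕ) {f : R2 → ℂ} (hf : Smooth2 f) :
    ‖Four.dmul v k‖ ^ m * ‖Four.fcoef f k‖ ≤ ‖v‖ ^ m * supD m f := by
  induction m generalizing f with
  | zero => simpa using norm_fcoef_le_supD hf k
  | succ m ih =>
    have hg : Smooth2 (fun p => fderiv ℝ f p v) :=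
      hf.fderiv.clm (ContinuousLinearMap.apply ℝ ℂ v)
    have h := ih hg
    rw [Four.fcoef_fderiv hf.1 hf.2, norm_mul, ← mul_assoc, ← pow_succ] at h
    refine h.trans ?_
    rw [pow_succ, mul_assoc]
    refine mul_le_mul_of_nonneg_left (supD_le fun x => ?_) (by positivity)
    refine (norm_iteratedFDeriv_clm_apply_const (hf.fderiv.1.contDiffAt)
      (by exact_mod_cast le_top)).trans ?_
    rw [norm_iteratedFDeriv_fderiv]
    exact mul_le_mul_of_nonneg_left (le_supD hf (m + 1) x) (norm_nonneg v)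

/-- The complex Fourier coefficients of a real map. -/
def rcoef (f : R2 → ℝ) : Four.K → ℂ := Four.fcoef fun x => (f x : ℂ)

lemma Smooth2.ofReal {f : R2 → ℝ} (hf : Smooth2 f) : Smooth2 (fun x => (f x : ℂ)) :=
  hf.clm Complex.ofRealCLM

lemma rapid_rcoef {f : R2 → ℝ} (hf : Smooth2 f) : Four.Rapid (rcoef f) :=
  Four.rapid_fcoef hf.ofReal.1 hf.ofReal.2

lemma kn_pow_mul_rcoef_le {f : R2 → ℝ} (hf : Smooth2 f) (k : Four.K) (m : ℕ) :
    Four.kn k ^ m * ‖rcoef f k‖ ≤ 2 ^ m * supD m f := by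
  have hd : ∀ v : R2, ‖v‖ = 1 → ‖Four.dmul v k‖ ^ m * ‖rcoef f k‖ ≤ supD m f := by
    intro v hv
    refine (dmul_pow_mul_le v k m hf.ofReal).trans ?_
    rw [hv, one_pow, one_mul]
    refine (supD_clm_le hf Complex.ofRealCLM m).trans ?_
    rw [Complex.ofRealCLM_norm, one_mul]
  have h2π : (1 : ℝ) ≤ 2 * π := by linarith [Real.two_le_pi]
  have key : ∀ (v : R2) (a : ℝ), ‖v‖ = 1 → Four.kn k ≤ 2 * |a| →
      ‖Four.dmul v k‖ = 2 * π * |a| → Four.kn k ^ m * ‖rcoef f k‖ ≤ 2 ^ m * supD m f := by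
    intro v a hv ha hn
    refine le_trans ?_ (mul_le_mul_of_nonneg_left (hd v hv) (by positivity))
    rw [← mul_assoc, hn, ← mul_pow]
    refine mul_le_mul_of_nonneg_right (pow_le_pow_left₀ (Four.kn_nonneg k) ?_ m) (norm_nonneg _)
    nlinarith [abs_nonneg a]
  rcases le_total |(k 0 : ℝ)| |(k 1 : ℝ)| with h | h
  · refine key (0, 1) (k 1) (by simp) (by simp only [Four.kn]; linarith) ?_
    simp [Four.dmul, Four.ph_apply, abs_of_pos Real.pi_pos]
  · refine key (1, 0) (k 0) (by simp) (by simp only [Four.kn]; linarith) ?_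
    simp [Four.dmul, Four.ph_apply, abs_of_pos Real.pi_pos]

/-- A real map given by complex coefficients. -/
def rser (c : Four.K → ℂ) (x : R2) : ℝ := (Four.fser c x).re

lemma smooth2_rser {c : Four.K → ℂ} (hc : Four.Rapid c) : Smooth2 (rser c) :=
  Smooth2.clm ⟨Four.contDiff_fser hc, Four.fser_periodic c⟩ Complex.reCLM

lemma rser_rcoef {f : R2 → ℝ} (hf : Smooth2 f) : rser (rcoef f) = f := by
  funext x
  rw [rser, rcoef, Four.fser_fcoef hf.ofReal.1.continuous hf.ofReal.2 (rapid_rcoef hf).summable,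
    Complex.ofReal_re]

lemma supD_rser_le {c : Four.K → ℂ} (hc : Four.Rapid c) {m : ℕ} {g : Four.K → ℝ}
    (hg : Summable g) (hb : ∀ k, (2 * π * Four.kn k) ^ m * ‖c k‖ ≤ g k) :
    supD m (rser c) ≤ ∑' k, g k := by
  refine (supD_clm_le ⟨Four.contDiff_fser hc, Four.fser_periodic c⟩ Complex.reCLM m).trans ?_
  rw [Complex.reCLM_norm, one_mul]
  refine supD_le fun x => ?_
  have hv : ∀ (i : ℕ) (k : Four.K) (y : R2), ‖iteratedFDeriv ℝ i (fun p => c k * Four.chr k p) y‖
      ≤ (2 * π * Four.kn k) ^ i * ‖c k‖ := by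
    intro i k y
    rw [show (fun p => c k * Four.chr k p) = fun p => c k • Four.chr k p from rfl,
      iteratedFDeriv_const_smul_apply'
        ((Four.contDiff_chr k).of_le (by exact_mod_cast le_top)).contDiffAt,
      norm_smul, mul_comm ‖c k‖]
    exact mul_le_mul_of_nonneg_right (Four.norm_iteratedFDeriv_chr k i y) (norm_nonneg _)
  have hs : ∀ i : ℕ, Summable fun k => (2 * π * Four.kn k) ^ i * ‖c k‖ := fun i => by
    refine ((hc i).mul_left ((2 * π) ^ i)).of_nonneg_of_le
      (fun k => by have := Four.kn_nonneg k; positivity) fun k => ?_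
    rw [mul_pow, mul_assoc]
    have := Four.kn_nonneg k
    gcongr
    linarith
  rw [show Four.fser c = fun p => ∑' k, c k * Four.chr k p from rfl,
    iteratedFDeriv_tsum_apply (N := (⊤ : ℕ∞)) (fun k => Four.contDiff_term (c k) k)
      (fun i _ => hs i) (fun i k y _ => hv i k y) le_top]
  exact tsum_of_norm_bounded hg.hasSum fun k => (hv m k x).trans (hb k)

/-- Coefficients of low frequency. -/
def low (t : ℝ) (c : Four.K → ℂ) : Four.K → ℂ := fun k => if Four.kn k ≤ t then c k else 0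

/-- Coefficients of high frequency. -/
def high (t : ℝ) (c : Four.K → ℂ) : Four.K → ℂ := fun k => if Four.kn k ≤ t then 0 else c k

lemma rapid_low {c : Four.K → ℂ} (hc : Four.Rapid c) (t : ℝ) : Four.Rapid (low t c) := fun s =>
  (hc s).of_nonneg_of_le (fun k => by have := Four.kn_nonneg k; positivity) fun k => by
    have := Four.kn_nonneg k
    simp only [low]; split_ifs
    · exact le_rfl
    · simp only [norm_zero, mul_zero]; positivity

lemma rapid_high {c : Four.K → ℂ} (hc : Four.Rapid c) (t : ℝ) : Four.Rapid (high t c) := fun s =>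
  (hc s).of_nonneg_of_le (fun k => by have := Four.kn_nonneg k; positivity) fun k => by
    have := Four.kn_nonneg k
    simp only [high]; split_ifs
    · simp only [norm_zero, mul_zero]; positivity
    · exact le_rfl

/-- The scalar truncation. -/
def trunc (t : ℝ) (f : R2 → ℝ) : R2 → ℝ := rser (low t (rcoef f))

lemma smooth2_trunc {f : R2 → ℝ} (hf : Smooth2 f) (t : ℝ) : Smooth2 (trunc t f) :=
  smooth2_rser (rapid_low (rapid_rcoef hf) t)

lemma sub_trunc {f : R2 → ℝ} (hf : Smooth2 f) (t : ℝ) :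
    (fun x => f x - trunc t f x) = rser (high t (rcoef f)) := by
  funext x
  have hc := rapid_rcoef hf
  nth_rw 1 [← rser_rcoef hf]
  simp only [trunc, rser, ← Complex.sub_re, Four.fser]
  rw [← Summable.tsum_sub (Four.summable_fser hc.summable x)
    (Four.summable_fser (rapid_low hc t).summable x)]
  congr 1
  refine tsum_congr fun k => ?_
  simp only [low, high]
  split_ifs <;> ring

/-- The lattice constant. -/
def latC : ℝ := 16 * ∑' k : Four.K, 1 / (1 + Four.kn k) ^ 4

lemma latC_nonneg : 0 ≤ latC := mul_nonneg (by norm_num) (tsum_nonneg fun k => by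
  have := Four.kn_nonneg k; positivity)

lemma supD_trunc_le {f : R2 → ℝ} (hf : Smooth2 f) {t : ℝ} (ht : 1 ≤ t) {l m : ℕ} (hlm : l ≤ m) :
    supD m (trunc t f) ≤ (4 * π) ^ m * latC * t ^ (4 + (m - l)) * supD l f := by
  have hD := supD_nonneg l f
  refine (supD_rser_le (rapid_low (rapid_rcoef hf) t) (Four.summable_inv_kn.mul_left
    ((4 * π) ^ m * 16 * t ^ (4 + (m - l)) * supD l f)) fun k => ?_).trans_eq ?_
  · have h0 := Four.kn_nonneg k
    simp only [low]
    split_ifs with h
    · obtain ⟨n, rfl⟩ := Nat.exists_eq_add_of_le hlm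
      rw [Nat.add_sub_cancel_left, mul_one_div, le_div_iff₀ (by positivity)]
      have key : Four.kn k ^ l * ‖rcoef f k‖ ≤ 2 ^ (l + n) * supD l f :=
        (kn_pow_mul_rcoef_le hf k l).trans
          (mul_le_mul_of_nonneg_right (pow_le_pow_right₀ one_le_two (by omega)) hD)
      have key' : Four.kn k ^ n * (Four.kn k ^ l * ‖rcoef f k‖) ≤ t ^ n * (2 ^ (l + n) * supD l f) :=
        mul_le_mul (pow_le_pow_left₀ h0 h n) key (by positivity) (by positivity)
      calc (2 * π * Four.kn k) ^ (l + n) * ‖rcoef f k‖ * (1 + Four.kn k) ^ 4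
          = (2 * π) ^ (l + n) * (Four.kn k ^ n * (Four.kn k ^ l * ‖rcoef f k‖))
              * (1 + Four.kn k) ^ 4 := by rw [mul_pow, pow_add (Four.kn k)]; ring
        _ ≤ (2 * π) ^ (l + n) * (t ^ n * (2 ^ (l + n) * supD l f)) * (2 * t) ^ 4 := by
            gcongr ?_ * ?_
            · exact mul_le_mul_of_nonneg_left key' (by positivity)
            · exact pow_le_pow_left₀ (by linarith) (by linarith) 4
        _ = _ := by
            rw [show (4 : ℝ) * π = 2 * π * 2 by ring, mul_pow (2 * π) 2, mul_pow (2 : ℝ) t, pow_add t 4 n]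
            ring
    · rw [norm_zero, mul_zero]
      positivity
  · rw [tsum_mul_left, latC]; ring

lemma supD_sub_trunc_le {f : R2 → ℝ} (hf : Smooth2 f) {t : ℝ} (ht : 1 ≤ t) {m k : ℕ}
    (hmk : m + 4 ≤ k) :
    supD m (fun x => f x - trunc t f x)
      ≤ (4 * π) ^ k * latC * (t ^ (m + 4) / t ^ k) * supD k f := by
  have hD := supD_nonneg k f
  rw [sub_trunc hf]
  refine (supD_rser_le (rapid_high (rapid_rcoef hf) t) (Four.summable_inv_kn.mul_left
    ((4 * π) ^ k * 16 * (t ^ (m + 4) / t ^ k) * supD k f)) fun q => ?_).trans_eq ?_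
  · have h0 := Four.kn_nonneg q
    simp only [high]
    split_ifs with h
    · rw [norm_zero, mul_zero]
      positivity
    · obtain ⟨n, rfl⟩ := Nat.exists_eq_add_of_le hmk
      have hq : t ≤ Four.kn q := le_of_lt (not_le.mp h)
      have h1 : t ^ (m + 4) / t ^ (m + 4 + n) = 1 / t ^ n := by
        rw [pow_add t (m + 4) n]; field_simp
      rw [h1, mul_one_div, mul_one_div, div_mul_eq_mul_div, div_div, le_div_iff₀ (by positivity)]
      calc (2 * π * Four.kn q) ^ m * ‖rcoef f q‖ * (t ^ n * (1 + Four.kn q) ^ 4)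
          ≤ (2 * π * Four.kn q) ^ m * ‖rcoef f q‖ * (Four.kn q ^ n * (2 * Four.kn q) ^ 4) := by
            gcongr
            linarith
        _ = (2 * π) ^ m * 16 * (Four.kn q ^ (m + 4 + n) * ‖rcoef f q‖) := by
            rw [mul_pow, mul_pow (2 : ℝ) (Four.kn q), pow_add, pow_add]; ring
        _ ≤ (2 * π) ^ (m + 4 + n) * 16 * (2 ^ (m + 4 + n) * supD (m + 4 + n) f) :=
            mul_le_mul (mul_le_mul_of_nonneg_right (pow_le_pow_right₀
              (by linarith [Real.two_le_pi]) (by omega)) (by norm_num))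
              (kn_pow_mul_rcoef_le hf q _) (by positivity) (by positivity)
        _ = _ := by rw [show (4 : ℝ) * π = 2 * π * 2 by ring, mul_pow (2 * π) 2]; ring
  · rw [tsum_mul_left, latC]; ring

/-- A constant for the scalar inequalities. -/
def truncC (j : ℕ) : ℝ := (j + 1) * (4 * π) ^ j * (latC + 1)

lemma truncC_nonneg (j : ℕ) : 0 ≤ truncC j := by
  have := latC_nonneg; unfold truncC; positivity

lemma pn_trunc_le {f : R2 → ℝ} (hf : Smooth2 f) {t : ℝ} (ht : 1 ≤ t) (j : ℕ) :
    pn j (trunc t f) ≤ truncC j * t ^ (j + 4) * pn 0 f := by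
  have hL := latC_nonneg
  have hp := pn_nonneg 0 f
  have h4 : (1 : ℝ) ≤ 4 * π := by linarith [Real.two_le_pi]
  refine (pn_le_of_supD (C := fun _ => (4 * π) ^ j * (latC + 1) * t ^ (j + 4) * pn 0 f)
    fun m hm => (supD_trunc_le hf ht (Nat.zero_le m)).trans ?_).trans_eq ?_
  · have hD := supD_nonneg 0 f
    have h0 : supD 0 f ≤ pn 0 f := supD_le_pn le_rfl f
    gcongr ?_ * ?_ * ?_ * ?_
    · exact pow_le_pow_right₀ h4 hm
    · linarith
    · exact pow_le_pow_right₀ ht (by omega)
  · rw [sum_const, card_range, nsmul_eq_mul, truncC]; push_cast; ring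

lemma pn_sub_trunc_le {f : R2 → ℝ} (hf : Smooth2 f) {t : ℝ} (ht : 1 ≤ t) {i k : ℕ} (hik : i ≤ k) :
    pn i (fun x => f x - trunc t f x) ≤ truncC k * (t ^ (8 + i) / t ^ k) * pn k f := by
  have hL := latC_nonneg
  have hp := pn_nonneg k f
  have h4 : (1 : ℝ) ≤ 4 * π := by linarith [Real.two_le_pi]
  refine (pn_le_of_supD (C := fun _ => (4 * π) ^ k * (latC + 1) * (t ^ (8 + i) / t ^ k) * pn k f)
    fun m hm => ?_).trans ?_
  · by_cases h : m + 4 ≤ k
    · refine (supD_sub_trunc_le hf ht h).trans ?_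
      have hD := supD_nonneg k f
      have h0 : supD k f ≤ pn k f := supD_le_pn le_rfl f
      gcongr ?_ * ?_ * (?_ / _) * ?_
      · linarith
      · exact pow_le_pow_right₀ ht (by omega)
    · have h1 : supD m (fun x => f x - trunc t f x) ≤ supD m f + supD m (trunc t f) := by
        refine supD_le fun x => ?_
        rw [show (fun x => f x - trunc t f x) = f - trunc t f from rfl,
          iteratedFDeriv_sub_apply (hf.1.of_le (by exact_mod_cast le_top)).contDiffAt
            ((smooth2_trunc hf t).1.of_le (by exact_mod_cast le_top)).contDiffAt]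
        exact (norm_sub_le _ _).trans (add_le_add (le_supD hf m x) (le_supD (smooth2_trunc hf t) m x))
      have h2 := supD_trunc_le hf ht (l := m) (m := m) le_rfl
      rw [Nat.sub_self, Nat.add_zero] at h2
      have h3 : t ^ 4 ≤ t ^ (8 + i) / t ^ k := by
        rw [le_div_iff₀ (by positivity), ← pow_add]
        exact pow_le_pow_right₀ ht (by omega)
      have h5 : supD m f ≤ pn k f := supD_le_pn (by omega) f
      have hD := supD_nonneg m f
      have h6 : (4 * π) ^ m ≤ (4 * π) ^ k := pow_le_pow_right₀ h4 (by omega)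
      have h7 : 1 ≤ (4 * π) ^ k * (t ^ (8 + i) / t ^ k) :=
        one_le_mul_of_one_le_of_one_le (one_le_pow₀ h4) ((one_le_pow₀ ht).trans h3)
      calc supD m (fun x => f x - trunc t f x)
          ≤ supD m f + (4 * π) ^ m * latC * t ^ 4 * supD m f := h1.trans (by linarith)
        _ ≤ (4 * π) ^ k * (t ^ (8 + i) / t ^ k) * pn k f
              + (4 * π) ^ k * latC * (t ^ (8 + i) / t ^ k) * pn k f := by
            refine add_le_add (h5.trans (le_mul_of_one_le_left hp h7)) ?_
            gcongr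
        _ = _ := by ring
  · rw [sum_const, card_range, nsmul_eq_mul, truncC]
    have hc : ((i + 1 : ℕ) : ℝ) ≤ (k : ℝ) + 1 := by
      push_cast; have : (i : ℝ) ≤ k := Nat.cast_le.mpr hik
      linarith
    calc _ ≤ ((k : ℝ) + 1) * ((4 * π) ^ k * (latC + 1) * (t ^ (8 + i) / t ^ k) * pn k f) :=
          mul_le_mul_of_nonneg_right hc (by positivity)
      _ = _ := by ring

variable [FiniteDimensional ℝ V]

/-- The coordinates in a fixed basis. -/
def crd (i : Fin (Module.finrank ℝ V)) : V →L[ℝ] ℝ :=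
  LinearMap.toContinuousLinearMap ((Module.finBasis ℝ V).coord i)

lemma sum_crd (v : V) : ∑ i, crd i v • Module.finBasis ℝ V i = v :=
  (Module.finBasis ℝ V).sum_repr v

/-- A constant for passing to coordinates. -/
def crdC (V : Type*) [NormedAddCommGroup V] [NormedSpace ℝ V] [FiniteDimensional ℝ V] : ℝ :=
  ∑ i : Fin (Module.finrank ℝ V), ‖Module.finBasis ℝ V i‖ * ‖(crd i : V →L[ℝ] ℝ)‖

lemma crdC_nonneg : 0 ≤ crdC V := sum_nonneg fun _ _ => by positivity

/-- The truncation of a map with finite-dimensional values. -/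
def truncV (t : ℝ) (v : R2 → V) (x : R2) : V :=
  ∑ i, trunc t (fun y => crd i (v y)) x • Module.finBasis ℝ V i

lemma Smooth2.sum {ι : Type*} (s : Finset ι) {u : ι → R2 → W} (hu : ∀ i ∈ s, Smooth2 (u i)) :
    Smooth2 (fun x => ∑ i ∈ s, u i x) :=
  ⟨ContDiff.sum fun i hi => (hu i hi).1, fun p => sum_congr rfl fun i hi => (hu i hi).2.1 p,
    fun p => sum_congr rfl fun i hi => (hu i hi).2.2 p⟩

lemma pn_sum_le {ι : Type*} (s : Finset ι) {u : ι → R2 → W} (hu : ∀ i ∈ s, Smooth2 (u i))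
    (j : ℕ) : pn j (fun x => ∑ i ∈ s, u i x) ≤ ∑ i ∈ s, pn j (u i) := by
  rw [pn]
  simp only [pn]
  rw [sum_comm]
  refine sum_le_sum fun m _ => supD_le fun x => ?_
  rw [iteratedFDeriv_sum (fun i hi => (hu i hi).1.of_le (by exact_mod_cast le_top)) ]
  rw [Finset.sum_apply]
  exact (norm_sum_le _ _).trans (sum_le_sum fun i hi => le_supD (hu i hi) m x)

lemma pn_coord_sum_le {g : Fin (Module.finrank ℝ V) → R2 → ℝ} (hg : ∀ i, Smooth2 (g i)) (j : ℕ)
    {C : ℝ} (h : ∀ i, pn j (g i) ≤ C * ‖(crd i : V →L[ℝ] ℝ)‖) :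
    pn j (fun x => ∑ i, g i x • Module.finBasis ℝ V i) ≤ crdC V * C := by
  refine (pn_sum_le univ (fun i _ => (hg i).clm
    ((ContinuousLinearMap.id ℝ ℝ).smulRight (Module.finBasis ℝ V i))) j).trans ?_
  rw [crdC, sum_mul]
  refine sum_le_sum fun i _ => (pn_clm_le (hg i) _ j).trans ?_
  rw [ContinuousLinearMap.norm_smulRight_apply, ContinuousLinearMap.norm_id, one_mul, mul_assoc,
    mul_comm ‖(crd i : V →L[ℝ] ℝ)‖]
  exact mul_le_mul_of_nonneg_left (h i) (norm_nonneg _)

lemma smooth2_truncV {v : R2 → V} (hv : Smooth2 v) (t : ℝ) : Smooth2 (truncV t v) :=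
  Smooth2.sum univ fun i _ => (smooth2_trunc (hv.clm (crd i)) t).clm
    ((ContinuousLinearMap.id ℝ ℝ).smulRight (Module.finBasis ℝ V i))

lemma pn_truncV_le {v : R2 → V} (hv : Smooth2 v) {t : ℝ} (ht : 1 ≤ t) (j : ℕ) :
    pn j (truncV t v) ≤ crdC V * (truncC j * t ^ (j + 4) * pn 0 v) := by
  refine pn_coord_sum_le (fun i => smooth2_trunc (hv.clm (crd i)) t) j fun i => ?_
  refine (pn_trunc_le (hv.clm (crd i)) ht j).trans ?_
  rw [mul_assoc _ (pn 0 v), mul_comm (pn 0 v)]
  have := truncC_nonneg j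
  gcongr
  exact pn_clm_le hv (crd i) 0

lemma pn_sub_truncV_le {v : R2 → V} (hv : Smooth2 v) {t : ℝ} (ht : 1 ≤ t) {i k : ℕ} (hik : i ≤ k) :
    pn i (fun x => v x - truncV t v x) ≤ crdC V * (truncC k * (t ^ (8 + i) / t ^ k) * pn k v) := by
  have e : (fun x => v x - truncV t v x)
      = fun x => ∑ n, (crd n (v x) - trunc t (fun y => crd n (v y)) x) • Module.finBasis ℝ V n := by
    funext x
    simp only [sub_smul, sum_sub_distrib, sum_crd, truncV]
  rw [e]
  refine pn_coord_sum_le (fun n => (hv.clm (crd n)).sub (smooth2_trunc (hv.clm (crd n)) t)) i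
    fun n => ?_
  refine (pn_sub_trunc_le (hv.clm (crd n)) ht hik).trans ?_
  rw [mul_assoc _ (pn k v), mul_comm (pn k v)]
  have := truncC_nonneg k
  gcongr
  exact pn_clm_le hv (crd n) k

/-- The smoothing operator with cutoff. -/
def smo (χ : R2 → ℝ) (t : ℝ) (v : R2 → V) (x : R2) : V := χ x • truncV t v x

lemma pn_cut_le {χ : R2 → ℝ} (hχ : Smooth2 χ) {w : R2 → W} (hw : Smooth2 w) (j : ℕ) {t : ℝ} (ht : 0 ≤ t)
    {K B : ℕ → ℝ} (hK : ∀ l, pn l χ ≤ K l * t ^ l) (hB : ∀ l ≤ j, pn (j - l) w * t ^ l ≤ B l) :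
    pn j (fun x => χ x • w x) ≤ ‖(ContinuousLinearMap.lsmul ℝ ℝ : ℝ →L[ℝ] W →L[ℝ] W)‖ * (j + 1)
      * 2 ^ j * ∑ l ∈ range (j + 1), |K l| * B l := by
  refine (pn_bilin_le hχ hw (ContinuousLinearMap.lsmul ℝ ℝ) j).trans
    (mul_le_mul_of_nonneg_left (sum_le_sum fun l hl => ?_) (by positivity))
  have h1 := pn_nonneg (j - l) w
  have h2 : pn l χ ≤ |K l| * |t ^ l| := (hK l).trans ((le_abs_self _).trans_eq (abs_mul _ _))
  rw [abs_of_nonneg (pow_nonneg ht l)] at h2
  calc pn l χ * pn (j - l) w ≤ |K l| * t ^ l * pn (j - l) w :=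
        mul_le_mul_of_nonneg_right h2 h1
    _ = |K l| * (pn (j - l) w * t ^ l) := by ring
    _ ≤ _ := mul_le_mul_of_nonneg_left (hB l (Nat.lt_succ_iff.mp (mem_range.mp hl)))
        (abs_nonneg _)

lemma smooth2_smo {χ : R2 → ℝ} (hχ : Smooth2 χ) {v : R2 → V} (hv : Smooth2 v) (t : ℝ) :
    Smooth2 (smo χ t v) :=
  hχ.bilin (smooth2_truncV hv t) (ContinuousLinearMap.lsmul ℝ ℝ)

lemma smo_eq_zero {χ : R2 → ℝ} {x : R2} (h : χ x = 0) (t : ℝ) (v : R2 → V) : smo χ t v x = 0 := by
  simp [smo, h]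

/-- The first smoothing inequality; the cutoff may depend on the frequency. -/
theorem smoothing_fst (K : ℕ → ℝ) (j : ℕ) :
    ∃ C, 0 ≤ C ∧ ∀ t : ℝ, 1 ≤ t → ∀ χ : R2 → ℝ, Smooth2 χ → (∀ l, pn l χ ≤ K l * t ^ l) →
      ∀ v : R2 → V, Smooth2 v → pn j (smo χ t v) ≤ C * t ^ (j + 4) * pn 0 v := by
  have h1 := crdC_nonneg (V := V)
  have h2 : ∀ l, 0 ≤ truncC l := truncC_nonneg
  refine ⟨‖(ContinuousLinearMap.lsmul ℝ ℝ : ℝ →L[ℝ] V →L[ℝ] V)‖ * (j + 1) * 2 ^ j
      * ∑ l ∈ range (j + 1), |K l| * (crdC V * truncC (j - l)),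
    mul_nonneg (by positivity) (sum_nonneg fun l _ => by have := h2 (j - l); positivity),
    fun t ht χ hχ hK v hv => ?_⟩
  refine (pn_cut_le hχ (smooth2_truncV hv t) j (by linarith) hK
    (B := fun l => crdC V * truncC (j - l) * (t ^ (j + 4) * pn 0 v)) fun l hl => ?_).trans_eq ?_
  · refine (mul_le_mul_of_nonneg_right (pn_truncV_le hv ht (j - l))
      (pow_nonneg (by linarith) l)).trans_eq ?_
    rw [show j + 4 = (j - l + 4) + l by omega, pow_add t (j - l + 4) l]; ring
  · simp only [← mul_assoc, ← sum_mul]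

/-- The second smoothing inequality, for maps fixed by the cutoff. -/
theorem smoothing_snd (K : ℕ → ℝ) (k : ℕ) :
    ∃ C, 0 ≤ C ∧ ∀ t : ℝ, 1 ≤ t → ∀ χ : R2 → ℝ, Smooth2 χ → (∀ l, pn l χ ≤ K l * t ^ l) →
      ∀ i ≤ k, ∀ v : R2 → V, Smooth2 v → (∀ x, χ x • v x = v x) →
        pn i (fun x => v x - smo χ t v x) * t ^ k ≤ C * t ^ (8 + i) * pn k v := by
  have h1 := crdC_nonneg (V := V)
  have h2 := truncC_nonneg k
  set L : ℝ := ‖(ContinuousLinearMap.lsmul ℝ ℝ : ℝ →L[ℝ] V →L[ℝ] V)‖ * (k + 1) * 2 ^ k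
  have hL : 0 ≤ L := by positivity
  refine ⟨L * (∑ l ∈ range (k + 1), |K l|) * (crdC V * truncC k),
    mul_nonneg (mul_nonneg hL (sum_nonneg fun l _ => abs_nonneg _)) (by positivity),
    fun t ht χ hχ hK i hik v hv hfix => ?_⟩
  have e : (fun x => v x - smo χ t v x) = fun x => χ x • (v x - truncV t v x) := by
    funext x
    rw [smul_sub, hfix, smo]
  have h4 := pn_nonneg k v
  have h5 : pn i (fun x => v x - smo χ t v x) ≤ L * (∑ l ∈ range (k + 1), |K l|)
      * (crdC V * truncC k * (t ^ (8 + i) / t ^ k) * pn k v) := by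
    rw [e]
    refine (pn_cut_le hχ (hv.sub (smooth2_truncV hv t)) i (by linarith) hK
      (B := fun _ => crdC V * truncC k * (t ^ (8 + i) / t ^ k) * pn k v) fun l hl => ?_).trans ?_
    · refine (mul_le_mul_of_nonneg_right (pn_sub_truncV_le hv ht (show i - l ≤ k by omega))
        (pow_nonneg (by linarith) l)).trans_eq ?_
      rw [show 8 + i = (8 + (i - l)) + l by omega, pow_add t (8 + (i - l)) l]; ring
    · rw [← sum_mul, ← mul_assoc]
      refine mul_le_mul_of_nonneg_right (mul_le_mul ?_ (sum_le_sum_of_subset_of_nonneg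
        (range_subset_range.mpr (by omega)) fun l _ _ => abs_nonneg _)
        (sum_nonneg fun l _ => abs_nonneg _) hL) (by positivity)
      exact mul_le_mul (mul_le_mul_of_nonneg_left (by exact_mod_cast Nat.add_le_add_right hik 1)
        (norm_nonneg _)) (pow_le_pow_right₀ one_le_two hik) (by positivity) (by positivity)
  refine (mul_le_mul_of_nonneg_right h5 (pow_nonneg (by linarith) k)).trans_eq ?_
  field_simp

end

end Vale.Agent.P205.Correction
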